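import Vale.Agent.P221X.TA.Mid

/-!
# P221X, row TA-OUT: the connective cover of the glued object is torsion and of finite type
-/

noncomputable section

open CategoryTheory MonoidalCategory Limits Pretriangulated

set_option linter.all false

namespace Vale.Agent.P221X.TA

open Vale.Agent.P251 Vale.Agent.P251.T Vale.Agent.P251.S NM

universe u

variable {T : Type u} [Category.{0} T] [Preadditive T] [HasZeroObject T] [HasShift T ℤ]
  [∀ n : ℤ, (shiftFunctor T n).Additive] [Pretriangulated T] [IsTriangulated T]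
  [MonoidalCategory T] [SymmetricCategory T] [TensorTriangulated T] [MonoidalClosed T]
  [HasCoproducts.{0} T] [HasProducts.{0} T] [StableCat T]

namespace Ou

/-- `m` kills `X` -/
def Kl (m : ℤ) (X : T) : Prop := m • 𝟙 X = 0

variable {m n : ℤ} {X Y Z V : T} {Δ : Triangle T}

theorem Kl.src (h : Kl m X) (f : X ⟶ Y) : m • f = 0 := by
  rw [← Category.id_comp f, ← Preadditive.zsmul_comp, h, zero_comp]

theorem Kl.tgt (h : Kl m X) (f : Y ⟶ X) : m • f = 0 := by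
  rw [← Category.comp_id f, ← Preadditive.comp_zsmul, h, comp_zero]

theorem Kl.ext (hΔ : Δ ∈ distTriang T) (h1 : Kl m Δ.obj₁) (h3 : Kl n Δ.obj₃) : Kl (m * n) Δ.obj₂ := by
  obtain ⟨g, hg⟩ := Δ.coyoneda_exact₂ hΔ (n • 𝟙 _) (by
    rw [Preadditive.zsmul_comp, Category.id_comp, h3.tgt])
  rw [Kl, mul_smul, hg, ← Preadditive.zsmul_comp, h1.tgt, zero_comp]

theorem Kl.map (h : Kl m X) (L : T ⥤ T) [L.Additive] : Kl m (L.obj X) := by
  rw [Kl, ← L.map_id, ← L.map_zsmul, h, L.map_zero]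

theorem Kl.mul (h : Kl m X) (n : ℤ) : Kl (n * m) X := by rw [Kl, mul_smul, h, smul_zero]

/-- the maps `ι i` are jointly epimorphic -/
def Ep {I : Type} {A : I → T} (ι : ∀ i, A i ⟶ X) : Prop :=
  ∀ (Z : T) (f : X ⟶ Z), (∀ i, ι i ≫ f = 0) → f = 0

theorem ep_sigma {I : Type} (A : I → T) : Ep (Sigma.ι A) := fun _ _ h =>
  Sigma.hom_ext _ _ fun i => (h i).trans comp_zero.symm

theorem ep_bi {I : Type} (A : I → T) [HasBiproduct A] : Ep (biproduct.ι A) := fun _ _ h =>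
  biproduct.hom_ext' _ _ fun i => (h i).trans comp_zero.symm

theorem Ep.kl {I : Type} {A : I → T} {ι : ∀ i, A i ⟶ X} (e : Ep ι) (h : ∀ i, Kl m (A i)) : Kl m X :=
  e _ _ fun i => by rw [Preadditive.comp_zsmul, (h i).src]

theorem Ep.acyc {I : Type} {A : I → T} {ι : ∀ i, A i ⟶ X} (e : Ep ι) (h : ∀ i, Acyclic V (A i)) :
    Acyclic V X := by
  rw [Acyclic, IsZero.iff_id_eq_zero, ← MonoidalClosed.uncurry_curry (𝟙 (V ⊗ X)),
    e _ (MonoidalClosed.curry _) fun i => MonoidalClosed.uncurry_injective ((h i).eq_of_src _ _),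
    MonoidalClosed.uncurry_eq, MonoidalPreadditive.whiskerLeft_zero, zero_comp]

theorem sh_surj {a k b : ℤ} (h : a + k = b) (x : Sph T b ⟶ Z⟦k⟧) :
    ∃ y : Sph T a ⟶ Z, (shAdd _ a k b h).inv ≫ y⟦k⟧' = x := by
  obtain ⟨y, hy⟩ := (shiftFunctor T k).map_surjective ((shAdd _ a k b h).hom ≫ x)
  exact ⟨y, by rw [hy, Iso.inv_hom_id_assoc]⟩

theorem hz_sh {a k b : ℤ} (h : a + k = b) (H : HZ (Sph T a) Z) : HZ (Sph T b) (Z⟦k⟧) :=
  (H.shift k).iso (shAdd _ a k b h) (Iso.refl _)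

theorem hz_ext (hΔ : Δ ∈ distTriang T) (h1 : HZ X Δ.obj₁) (h3 : HZ X Δ.obj₃) : HZ X Δ.obj₂ :=
  fun f => by
    obtain ⟨g, rfl⟩ := Δ.coyoneda_exact₂ hΔ f (h3 _)
    rw [h1 g, zero_comp]

theorem fin_ext (hΔ : Δ ∈ distTriang T) (h1 : Finite (X ⟶ Δ.obj₁)) (h3 : Finite (X ⟶ Δ.obj₃)) :
    Finite (X ⟶ Δ.obj₂) :=
  Set.finite_univ_iff.1 (FinKer.preimage (φ := post X Δ.mor₂)
    ((Set.finite_range fun g : X ⟶ Δ.obj₁ => g ≫ Δ.mor₁).subset fun f hf =>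
      (Δ.coyoneda_exact₂ hΔ f hf).imp fun _ => Eq.symm) Set.finite_univ)

theorem HZ.fin (h : HZ X Y) : Finite (X ⟶ Y) :=
  haveI : Subsingleton (X ⟶ Y) := ⟨fun f g => (h f).trans (h g).symm⟩
  inferInstance

theorem fin_thick {B : T} (h : Thick B Z) (hB : ∀ n, Finite (Sph T n ⟶ B)) :
    ∀ n, Finite (Sph T n ⟶ Z) := by
  induction h with
  | base => exact hB
  | zero h => exact fun n => HZ.fin fun f => ((IsZero.iff_id_eq_zero _).2 h).eq_of_tgt _ _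
  | susp k _ ih => exact fun n => .of_surjective _ (sh_surj (sub_add_cancel n k))
  | cof hT _ _ ih ih' =>
    exact fun n => fin_ext (rot_of_distTriang _ hT) (ih' n)
      (@Finite.of_surjective _ _ (ih _) _ (sh_surj (sub_add_cancel n 1)))
  | retract i r e _ ih =>
    exact fun n => .of_surjective (fun x => x ≫ r) fun x =>
      ⟨x ≫ i, by simp only [Category.assoc, e, Category.comp_id]⟩

/-- bounded above (`ε = 1`) or below (`ε = -1`) -/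
def Bd (ε : ℤ) (Z : T) : Prop := ∃ N : ℤ, ∀ n, N < ε * n → HZ (Sph T n) Z

theorem Bd.shift {ε : ℤ} (h : Bd ε Z) (k : ℤ) : Bd ε (Z⟦k⟧) :=
  let ⟨N, hN⟩ := h
  ⟨N + ε * k, fun n l => hz_sh (sub_add_cancel n k) (hN _ (by linarith))⟩

theorem Bd.ext {ε : ℤ} (hΔ : Δ ∈ distTriang T) (h1 : Bd ε Δ.obj₁) (h3 : Bd ε Δ.obj₃) : Bd ε Δ.obj₂ :=
  let ⟨N, hN⟩ := h1
  let ⟨M, hM⟩ := h3
  ⟨max N M, fun n l => hz_ext hΔ (hN n (lt_of_le_of_lt (le_max_left _ _) l))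
    (hM n (lt_of_le_of_lt (le_max_right _ _) l))⟩

theorem bd_zero {ε : ℤ} (h : IsZero Z) : Bd ε Z := ⟨0, fun _ _ _ => h.eq_of_tgt _ _⟩

theorem bd_thick {ε : ℤ} {B : T} (h : Thick B Z) (hB : Bd ε B) : Bd ε Z := by
  induction h with
  | base => exact hB
  | zero h => exact bd_zero ((IsZero.iff_id_eq_zero _).2 h)
  | susp k _ ih => exact ih.shift k
  | cof hT _ _ ih ih' => exact .ext (rot_of_distTriang _ hT) ih' (ih.shift 1)
  | retract i r e _ ih =>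
    exact ih.imp fun N h n l x => by
      rw [← Category.comp_id x, ← e, ← Category.assoc, h n l (x ≫ i), zero_comp]

theorem thick_tensor (hV : IsFin V) (X : T) : Thick X (X ⊗ V) :=
  (Thick.map (tensorLeft X) hV).trans (Thick.base.iso (ρ_ X).symm)

end Ou

open Ou

variable {Y X V : T}

theorem Cov.pow_of (C : Cov Y X) {m : ℤ} (h : m • 𝟙 Y = 0) : m • 𝟙 X = 0 := by
  obtain ⟨g, hg⟩ := Triangle.coyoneda_exact₂ _ (inv_rot_of_distTriang _ C.dist) (m • 𝟙 X)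
    ((Preadditive.zsmul_comp _ C.c _).trans (Kl.tgt h _))
  rw [hg, C.orth (-1) g (by omega)]
  exact zero_comp

theorem Cov.fin_pi (C : Cov Y X) (h : ∀ d ≥ 0, Finite (Sph T d ⟶ Y)) (n : ℤ) :
    Finite (Sph T n ⟶ X) := by
  rcases lt_or_ge n 0 with l | l
  · exact HZ.fin (C.conn n l)
  · exact fin_ext (inv_rot_of_distTriang _ C.dist)
      (HZ.fin (hz_sh (a := n + 1) (by omega) (C.cocon _ (by omega)))) (h n l)

theorem Cov.fin_of (C : Cov Y X) (hV : IsFin V) (h : ∀ d ≥ 0, Finite (Sph T d ⟶ Y)) (n : ℤ) :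
    Finite (Sph T n ⟶ X ⊗ V) := fin_thick (thick_tensor hV X) (C.fin_pi h) n

theorem Cov.bdd_of (C : Cov Y X) (hV : IsFin V) (h : IsZero (Y ⊗ V)) :
    ∃ N : ℤ, ∀ n : ℤ, N < |n| → ∀ x : Sph T n ⟶ X ⊗ V, x = 0 := by
  obtain ⟨N, hN⟩ := bd_thick (thick_tensor hV X) (ε := -1) ⟨0, fun n l => C.conn n (by omega)⟩
  obtain ⟨M, hM⟩ := Bd.ext (inv_rot_of_distTriang _ (dist_whiskerRight V C.dist))
    ((bd_thick (thick_tensor hV C.W) (ε := 1) ⟨0, fun n l => C.cocon n (by omega)⟩).shift (-1))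
    (bd_zero h)
  refine ⟨max N M, fun n l => ?_⟩
  rcases lt_abs.1 l with l | l
  exacts [hM n (by omega), hN n (by omega)]

variable {p : ℕ} {F : Type} [Field F] {D : GD p F} {R : Type} [Ring R] [Algebra F R]
  {S : RD D R} {𝒜 : AlgA S} {b : T} (𝓜 : MD 𝒜 b V) (I : Idx 𝒜)

namespace MD

theorem kl_Y (i : 𝓜.ι) : Kl ((p : ℤ) ^ 2 * p ^ 2) (𝓜.Y i) :=
  Kl.ext (rot_of_distTriang _ (𝓜.dist i)) (𝓜.pP i) (Kl.map (𝓜.pP i) _)

theorem kl_Yf : ((p : ℤ) ^ 8) • 𝟙 (𝓜.Yf I) = 0 := by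
  have h1 : Kl ((p : ℤ) ^ 2 * p ^ 2) (𝓜.Src I) := biprod.hom_ext' _ _
    (by rw [Preadditive.comp_zsmul, ((ep_bi _).kl 𝓜.kl_Y).src, comp_zero])
    (by rw [Preadditive.comp_zsmul, show (p : ℤ) ^ 2 * p ^ 2 = p ^ 3 * p by ring,
      (((ep_bi _).kl fun i => (ep_sigma _).kl fun _ => 𝓜.pJ i).mul _).src, comp_zero])
  have := Kl.ext (inv_rot_of_distTriang _ (𝓜.fdist I))
    (((ep_bi _).kl fun i => (𝓜.kl_Y i).map 𝓜.Le.L).map (shiftFunctor T (-1))) h1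
  rwa [← pow_add, ← pow_add] at this

theorem Yf_V : IsZero (𝓜.Yf I ⊗ V) := by
  have sw : ∀ {Z : T}, IsZero (Z ⊗ V) → Acyclic V Z := fun h => h.of_iso (β_ _ _)
  have hY : ∀ i, Acyclic V (𝓜.Y i) := fun i => .ext₃ (𝓜.dist i) (sw (𝓜.P_V i)) (sw (𝓜.P_V i))
  have hL : ∀ i, Acyclic V (𝓜.Le.L.obj (𝓜.Y i)) := fun i =>
    .ext₃ (𝓜.Le.map_dist (𝓜.dist i)) (sw (𝓜.LeP_V i)) (sw (𝓜.LeP_V i))
  have hS : Acyclic V (𝓜.Src I) := .ext₂ (binaryBiproductTriangle_distinguished _ _)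
    ((ep_bi _).acyc hY) ((ep_bi (𝓜.W I)).acyc fun i => (ep_sigma _).acyc fun _ => sw (𝓜.J_V i))
  exact IsZero.of_iso (Acyclic.ext₁ (𝓜.fdist I) hS ((ep_bi _).acyc hL)) (β_ _ _)

variable (C : Cov (𝓜.Yf I) X)

include C

theorem out_pow : ∃ k : ℕ, ((p : ℤ) ^ k) • 𝟙 X = 0 := ⟨8, C.pow_of (𝓜.kl_Yf I)⟩

theorem out_fin (hV : IsFin V) (h : ∀ d ≥ 0, Finite (Sph T d ⟶ 𝓜.Yf I)) (n : ℤ) :
    Finite (Sph T n ⟶ X ⊗ V) := C.fin_of hV h n

theorem out_bdd (hV : IsFin V) : ∃ N : ℤ, ∀ n : ℤ, N < |n| → ∀ x : Sph T n ⟶ X ⊗ V, x = 0 :=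
  C.bdd_of hV (𝓜.Yf_V I)

theorem out_of (hV : IsFin V) (h : ∀ d ≥ 0, Finite (Sph T d ⟶ 𝓜.Yf I)) (nt : ¬ Thick b X) :
    Out p b V X := ⟨𝓜.out_pow I C, C.conn, C.fin_of hV h, C.bdd_of hV (𝓜.Yf_V I), nt⟩

end MD

end Vale.Agent.P221X.TA
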