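import Vale.Agent.P221X.Base.Top
import Vale.Agent.P221X.NM.TopT

/-!
# P221X, block TOP-A: coordinates on `[N, L_e Q]` and their transport
-/

noncomputable section

open CategoryTheory MonoidalCategory Limits Pretriangulated MulOpposite

set_option linter.unusedSectionVars false

namespace Vale.Agent.P221X.TA

open Vale.Agent.P251 Vale.Agent.P251.T Vale.Agent.P251.S NM

universe u

variable {T : Type u} [Category.{0} T] [Preadditive T] [HasZeroObject T] [HasShift T ℤ]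
  [∀ n : ℤ, (shiftFunctor T n).Additive] [Pretriangulated T] [IsTriangulated T]
  [MonoidalCategory T] [SymmetricCategory T] [TensorTriangulated T] [MonoidalClosed T]
  [HasCoproducts.{0} T] [HasProducts.{0} T] [StableCat T] {Ke : T} (Le : LocFunctor Ke)

/-- the shift of a map to `L Q` -/
def sh (s : ℤ) {N Q : T} : (N ⟶ Le.L.obj Q) ≃+ (N⟦s⟧ ⟶ Le.L.obj (Q⟦s⟧)) :=
  AddEquiv.ofBijective (AddMonoidHom.mk' (fun x => x⟦s⟧' ≫ (Le.L.commShiftIso s).inv.app Q)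
    fun x y => by rw [Functor.map_add, Preadditive.add_comp])
    ⟨fun _ _ h => (shiftFunctor T s).map_injective
      ((cancel_mono ((Le.L.commShiftIso s).inv.app Q)).1 h), fun y => by
      obtain ⟨x, hx⟩ := (shiftFunctor T s).map_surjective (y ≫ (Le.L.commShiftIso s).hom.app Q)
      refine ⟨x, ?_⟩
      change x⟦s⟧' ≫ _ = y
      rw [hx, Category.assoc, Iso.hom_inv_id_app]
      exact Category.comp_id y⟩

theorem sh_apply (s : ℤ) {N Q : T} (x : N ⟶ Le.L.obj Q) :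
    sh Le s x = x⟦s⟧' ≫ (Le.L.commShiftIso s).inv.app Q := rfl

theorem sh_map (s : ℤ) {N Q Q' : T} (x : N ⟶ Le.L.obj Q) (f : Q ⟶ Q') :
    sh Le s (x ≫ Le.L.map f) = sh Le s x ≫ Le.L.map (f⟦s⟧') := by
  have := (Le.L.commShiftIso s).inv.naturality f
  simp only [Functor.comp_map] at this
  rw [sh_apply, sh_apply, Functor.map_comp, Category.assoc, Category.assoc]
  exact congrArg (x⟦s⟧' ≫ ·) this

theorem sh_comp (s : ℤ) {N N' Q : T} (z : N' ⟶ N) (x : N ⟶ Le.L.obj Q) :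
    sh Le s (z ≫ x) = z⟦s⟧' ≫ sh Le s x := by
  rw [sh_apply, sh_apply, Functor.map_comp, Category.assoc]

theorem sh_u (s : ℤ) {N Q : T} (x : N ⟶ Q) : sh Le s (x ≫ Le.u Q) = x⟦s⟧' ≫ Le.u (Q⟦s⟧) := by
  rw [sh_apply, Functor.map_comp, Le.u_shift, Category.assoc, Category.assoc, Iso.hom_inv_id_app]
  exact congrArg (x⟦s⟧' ≫ ·) (Category.comp_id _)

theorem hz_sh {N Q : T} (h : HZ N (Le.L.obj Q)) (s : ℤ) : HZ (N⟦s⟧) (Le.L.obj (Q⟦s⟧)) := fun x => by
  obtain ⟨y, rfl⟩ := (sh Le s).surjective x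
  rw [h y, map_zero]

theorem surj_sh {N Q Q' : T} {f : Q ⟶ Q'}
    (h : Function.Surjective fun x : N ⟶ Le.L.obj Q => x ≫ Le.L.map f) (s : ℤ) :
    Function.Surjective fun x : N⟦s⟧ ⟶ Le.L.obj (Q⟦s⟧) => x ≫ Le.L.map (f⟦s⟧') := fun y => by
  obtain ⟨y, rfl⟩ := (sh Le s).surjective y
  obtain ⟨x, rfl⟩ := h y
  exact ⟨sh Le s x, (sh_map Le s x f).symm⟩

/-- maps out of the shifts of a two cell complex -/
theorem hz_moore {M Q : T} {f : 𝟙_ T ⟶ 𝟙_ T} {i : 𝟙_ T ⟶ M} {δ : M ⟶ (𝟙_ T)⟦(1 : ℤ)⟧}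
    (h : Triangle.mk f i δ ∈ distTriang T) (n : ℤ) (h0 : HZ (Sph T n) Q)
    (h1 : HZ (Sph T (n + 1)) Q) : HZ (M⟦n⟧) Q := fun x => by
  obtain ⟨g, hg⟩ := Triangle.yoneda_exact₂ _
    (Triangle.shift_distinguished _ (rot_of_distTriang _ h) n) x (h0 _)
  have : g = 0 := (h1.iso (shAdd (𝟙_ T) 1 n (n + 1) (add_comm _ _)).symm (Iso.refl _)) g
  rw [hg, this]
  exact comp_zero

variable {F : Type} [Field F] {AA : Type} (act : AA → KK F → KK F)

/-- equivariant coordinates on `[N, L_e Q]` in which `[N, Q]` is the lattice `u ^ (-a) O` -/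
structure Cd (N Q : T) (l : AA → (Q ⟶ Q)) (a : ℤ) where
  κ : (N ⟶ Le.L.obj Q) ≃+ KK F
  eqv : ∀ x m, κ (x ≫ Le.L.map (l m)) = act m (κ x)
  inj : ∀ x : N ⟶ Q, x ≫ Le.u Q = 0 → x = 0
  range : ∀ z, z ∈ KK.ge (-a) ↔ ∃ x : N ⟶ Q, κ (x ≫ Le.u Q) = z

namespace Cd

variable {Le act} {N N' Q Q' : T} {l : AA → (Q ⟶ Q)} {l' : AA → (Q' ⟶ Q')} {a : ℤ}

/-- transport along a map of the targets -/
def fwd (c : Cd Le act N Q l a) (f : Q ⟶ Q') (hf : ∀ m, l m ≫ f = f ≫ l' m)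
    (b₁ : Function.Surjective (post N f)) (b₂ : Function.Bijective (post N (Le.L.map f))) :
    Cd Le act N Q' l' a where
  κ := (AddEquiv.ofBijective _ b₂).symm.trans c.κ
  eqv x m := by
    obtain ⟨y, rfl⟩ := (AddEquiv.ofBijective _ b₂).surjective x
    have : AddEquiv.ofBijective _ b₂ y ≫ Le.L.map (l' m) =
        AddEquiv.ofBijective _ b₂ (y ≫ Le.L.map (l m)) := by
      simp [← Functor.map_comp, hf]
    rw [this]
    simp only [AddEquiv.trans_apply, AddEquiv.symm_apply_apply, c.eqv]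
  inj x hx := by
    obtain ⟨y, rfl⟩ := b₁ x
    rw [post_apply, Category.assoc, ← Le.u_naturality, ← Category.assoc] at hx
    rw [c.inj y (b₂.1 (hx.trans (map_zero _).symm)), map_zero]
  range z := by
    have key : ∀ y : N ⟶ Q, (AddEquiv.ofBijective _ b₂).symm ((y ≫ f) ≫ Le.u Q') = y ≫ Le.u Q :=
      fun y => (AddEquiv.symm_apply_eq _).2 (by simp [Le.u_naturality])
    rw [c.range]
    refine ⟨fun ⟨y, hy⟩ => ⟨y ≫ f, by rw [AddEquiv.trans_apply, key, hy]⟩, fun ⟨x, hx⟩ => ?_⟩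
    obtain ⟨y, rfl⟩ := b₁ x
    exact ⟨y, by rw [← hx, AddEquiv.trans_apply, post_apply, key]⟩

/-- transport against a map of the targets -/
def bwd (c : Cd Le act N Q' l' a) (f : Q ⟶ Q') (hf : ∀ m, l m ≫ f = f ≫ l' m)
    (b₁ : Function.Bijective (post N f)) (b₂ : Function.Bijective (post N (Le.L.map f))) :
    Cd Le act N Q l a where
  κ := (AddEquiv.ofBijective _ b₂).trans c.κ
  eqv x m := by
    have : AddEquiv.ofBijective _ b₂ (x ≫ Le.L.map (l m)) =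
        AddEquiv.ofBijective _ b₂ x ≫ Le.L.map (l' m) := by
      simp [← Functor.map_comp, hf]
    simp only [AddEquiv.trans_apply, this, c.eqv]
  inj x hx := b₁.1 (by
    rw [map_zero]
    exact c.inj _ (by rw [post_apply, Category.assoc, ← Le.u_naturality, reassoc_of% hx, zero_comp]))
  range z := by
    have key : ∀ y : N ⟶ Q, AddEquiv.ofBijective _ b₂ (y ≫ Le.u Q) = (y ≫ f) ≫ Le.u Q' :=
      fun y => by simp [Le.u_naturality]
    rw [c.range]
    refine ⟨fun ⟨x, hx⟩ => ?_, fun ⟨y, hy⟩ => ⟨y ≫ f, by rw [← hy, AddEquiv.trans_apply, key]⟩⟩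
    obtain ⟨y, rfl⟩ := b₁.2 x
    exact ⟨y, by rw [← hx, AddEquiv.trans_apply, key, post_apply]⟩

/-- transport along a map of the test objects -/
def pre (c : Cd Le act N Q l a) (e : N' ⟶ N) (b₁ : Function.Surjective fun x : N ⟶ Q => e ≫ x)
    (b₂ : Function.Bijective (Preadditive.leftComp (Le.L.obj Q) e)) : Cd Le act N' Q l a where
  κ := (AddEquiv.ofBijective _ b₂).symm.trans c.κ
  eqv x m := by
    obtain ⟨y, rfl⟩ := (AddEquiv.ofBijective _ b₂).surjective x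
    have : AddEquiv.ofBijective _ b₂ y ≫ Le.L.map (l m) =
        AddEquiv.ofBijective _ b₂ (y ≫ Le.L.map (l m)) := Category.assoc _ _ _
    rw [this]
    simp only [AddEquiv.trans_apply, AddEquiv.symm_apply_apply, c.eqv]
  inj x hx := by
    obtain ⟨y, rfl⟩ := b₁ x
    have : y ≫ Le.u Q = 0 := b₂.1 (((Category.assoc _ _ _).symm.trans hx).trans (map_zero _).symm)
    simp only [c.inj y this, comp_zero]
  range z := by
    have key : ∀ y : N ⟶ Q, (AddEquiv.ofBijective _ b₂).symm ((e ≫ y) ≫ Le.u Q) = y ≫ Le.u Q :=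
      fun y => (AddEquiv.symm_apply_eq _).2 (Category.assoc _ _ _)
    rw [c.range]
    refine ⟨fun ⟨y, hy⟩ => ⟨e ≫ y, by rw [AddEquiv.trans_apply, key, hy]⟩, fun ⟨x, hx⟩ => ?_⟩
    obtain ⟨y, rfl⟩ := b₁ x
    exact ⟨y, by rw [← hx, AddEquiv.trans_apply, key]⟩

/-- transport along an isomorphism of the test objects -/
def iso (c : Cd Le act N Q l a) (e : N' ≅ N) : Cd Le act N' Q l a :=
  c.pre e.hom (fun x => ⟨e.inv ≫ x, by simp⟩)
    ⟨fun _ _ h => (cancel_epi e.hom).1 h, fun x => ⟨e.inv ≫ x, e.hom_inv_id_assoc x⟩⟩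

/-- the shift -/
def shift (c : Cd Le act N Q l a) (s : ℤ) :
    Cd Le act (N⟦s⟧) (Q⟦s⟧) (fun m => (l m)⟦s⟧') a where
  κ := (sh Le s).symm.trans c.κ
  eqv x m := by
    obtain ⟨y, rfl⟩ := (sh Le s).surjective x
    rw [← sh_map]
    simp only [AddEquiv.trans_apply, AddEquiv.symm_apply_apply, c.eqv]
  inj x hx := by
    obtain ⟨y, rfl⟩ := (shiftFunctor T s).map_surjective x
    rw [← sh_u, map_eq_zero_iff _ (sh Le s).injective] at hx
    rw [c.inj y hx, Functor.map_zero]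
  range z := by
    rw [c.range]
    refine ⟨fun ⟨y, hy⟩ => ⟨y⟦s⟧', by
      rw [← sh_u, AddEquiv.trans_apply, AddEquiv.symm_apply_apply, hy]⟩, fun ⟨x, hx⟩ => ?_⟩
    obtain ⟨y, rfl⟩ := (shiftFunctor T s).map_surjective x
    rw [← sh_u, AddEquiv.trans_apply, AddEquiv.symm_apply_apply] at hx
    exact ⟨y, hx⟩

end Cd

/-! ### bijectivity from a triangle -/

section Tri

variable {G : T ⥤ T} [G.Additive] (hG : Ex G) {X Y : T} {t : X ⟶ X} {i : X ⟶ Y}
  {o : Y ⟶ X⟦(1 : ℤ)⟧} (h : Triangle.mk t i o ∈ distTriang T) {N : T}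

include hG h

theorem bij_inn (h0 : ∀ x : N ⟶ G.obj X, x ≫ G.map t = 0) (h1 : HZ N (G.obj (X⟦(1 : ℤ)⟧))) :
    Function.Bijective (post N (G.map i)) := by
  refine ⟨(injective_iff_map_eq_zero _).2 fun x hx => ?_, fun y => ?_⟩
  · obtain ⟨w, rfl⟩ : ∃ w : N ⟶ G.obj X, x = w ≫ G.map t := hG.co _ h _ x hx
    exact h0 w
  · obtain ⟨w, rfl⟩ : ∃ w : N ⟶ G.obj X, y = w ≫ G.map i :=
      hG.co _ (rot_of_distTriang _ h) _ y (h1 _)
    exact ⟨w, rfl⟩

theorem bij_out (h0 : ∀ x : N ⟶ G.obj (X⟦(1 : ℤ)⟧), x ≫ G.map (t⟦(1 : ℤ)⟧') = 0)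
    (h1 : HZ N (G.obj X)) : Function.Bijective (post N (G.map o)) := by
  refine ⟨(injective_iff_map_eq_zero _).2 fun x hx => ?_, fun y => ?_⟩
  · obtain ⟨w, rfl⟩ : ∃ w : N ⟶ G.obj X, x = w ≫ G.map i :=
      hG.co _ (rot_of_distTriang _ h) _ x hx
    rw [h1 w, zero_comp]
  · obtain ⟨w, rfl⟩ : ∃ w : N ⟶ G.obj Y, y = w ≫ G.map o :=
      hG.co _ (rot_of_distTriang _ (rot_of_distTriang _ h)) _ y (by
        change y ≫ G.map (-t⟦(1 : ℤ)⟧') = 0
        rw [Functor.map_neg, Preadditive.comp_neg, h0, neg_zero])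
    exact ⟨w, rfl⟩

theorem hz_cof (h0 : HZ N (G.obj X)) (h1 : HZ N (G.obj (X⟦(1 : ℤ)⟧))) : HZ N (G.obj Y) :=
  fun y => by
    obtain ⟨w, rfl⟩ := (bij_inn hG h (fun x => by rw [h0 x, zero_comp]) h1).2 y
    rw [h0 w, map_zero]

end Tri

end Vale.Agent.P221X.TA
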