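import Vale.Agent.P221X.TA.Mid

/-!
# P221X, row TA-FT: the homotopy groups of the glued object are finite in degrees `≥ 0`
-/

noncomputable section

open CategoryTheory MonoidalCategory Limits Pretriangulated MulOpposite

set_option linter.unusedSectionVars false

namespace Vale.Agent.P221X.TA

open Vale.Agent.P251 Vale.Agent.P251.T Vale.Agent.P251.S NM

/-- finite range on a subgroup, in two steps -/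
theorem fin_step {A B C : Type*} [AddCommGroup A] [AddCommGroup B] [AddCommGroup C]
    (K : AddSubgroup A) (α : A →+ B) (β : A →+ C) (h : (α '' K).Finite)
    (h' : (β '' {x | x ∈ K ∧ α x = 0}).Finite) : (β '' K).Finite := by
  refine (h.biUnion (t := fun b => β '' {x | x ∈ K ∧ α x = b}) ?_).subset ?_
  · rintro _ ⟨x₀, h0, rfl⟩
    refine (h'.image (· + β x₀)).subset ?_
    rintro _ ⟨x, ⟨h1, h2⟩, rfl⟩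
    exact ⟨_, ⟨x - x₀, ⟨sub_mem h1 h0, by rw [map_sub, h2, sub_self]⟩, rfl⟩, by simp⟩
  · rintro _ ⟨x, hx, rfl⟩
    exact Set.mem_biUnion ⟨x, hx, rfl⟩ ⟨x, ⟨hx, rfl⟩, rfl⟩

variable {p : ℕ} {F : Type} [Field F] {D : GD p F} {R : Type} [Ring R] [Algebra F R]

theorem lc_inv {Λ : Type} {f : Λ → KK F} (h : ∀ l, f l ∈ KK.inv (p + 1)) (n : Λ →₀ ℤ) :
    lc f n ∈ KK.inv (p + 1) := by
  rw [Finsupp.linearCombination_apply]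
  exact sum_mem fun l _ => zsmul_mem (h l) _

theorem th_inv {S : RD D R} (𝒜 : AlgA S) {f : KK F} (h : f ∈ KK.inv (p + 1)) :
    S.op 𝒜.θ f ∈ KK.inv (p + 1) := by
  rw [← KK.prj_of_mem h, 𝒜.θ_prj]
  exact KK.prj_mem_inv _ _

universe u

variable {T : Type u} [Category.{0} T] [Preadditive T] [HasZeroObject T] [HasShift T ℤ]
  [∀ n : ℤ, (shiftFunctor T n).Additive] [Pretriangulated T] [IsTriangulated T]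
  [MonoidalCategory T] [SymmetricCategory T] [TensorTriangulated T] [MonoidalClosed T]
  [HasCoproducts.{0} T] [HasProducts.{0} T] [StableCat T]

theorem cmb_p {N J : T} (z : N ⟶ J) (h : (p : ℤ) • 𝟙 J = 0) {I : Type} (n m : I →₀ ℤ) :
    cmb z (n + p • m) = cmb z n := by
  have h1 : ∀ a, (p : ℤ) • (z ≫ Sigma.ι (fun _ : I => J) a) = 0 := fun a => by
    rw [← Category.id_comp (Sigma.ι _ a), ← Preadditive.comp_zsmul, ← Preadditive.zsmul_comp, h,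
      zero_comp, comp_zero]
  rw [cmb, map_add, ← natCast_zsmul, map_smul, Finsupp.linearCombination_apply ℤ m, Finsupp.sum,
    Finset.smul_sum, Finset.sum_eq_zero fun a _ => by rw [smul_comm, h1, smul_zero], add_zero, cmb]

theorem Crd.of_ge {Ke : T} {Le : LocFunctor Ke} {N P : T} {γ : KK F → (N ⟶ Le.L.obj P)}
    (h : Crd p Le N P γ) {f : KK F} (h1 : f ∈ KK.inv (p + 1)) (h2 : f ∈ KK.ge 0) :
    ∃ x : N ⟶ P, x ≫ Le.u P = γ f :=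
  have ⟨_, ha⟩ := h.lat
  (ha f h1).1 (KK.ge_mono (by omega) h2)

namespace MD

variable {S : RD D R} {𝒜 : AlgA S} {b V : T} (𝓜 : MD 𝒜 b V) (I : Idx 𝒜)

/-- the inclusion of `Y i` -/
def iY (i : 𝓜.ι) : 𝓜.Y i ⟶ 𝓜.Src I := biproduct.ι _ i ≫ biprod.inl

/-- the inclusion of `W i` -/
def iW (i : 𝓜.ι) : 𝓜.W I i ⟶ 𝓜.Src I := biproduct.ι _ i ≫ biprod.inr

/-- the inclusion of `L_e Y i` -/
abbrev iT (i : 𝓜.ι) : 𝓜.Le.L.obj (𝓜.Y i) ⟶ 𝓜.Tgt :=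
  biproduct.ι (fun i => 𝓜.Le.L.obj (𝓜.Y i)) i

theorem iY_Φ (i : 𝓜.ι) : 𝓜.iY I i ≫ 𝓜.Φ I = 𝓜.Le.u _ ≫ 𝓜.iT i := by
  refine biproduct.hom_ext _ _ fun j => ?_
  obtain ⟨j, rfl⟩ := 𝓜.succ.surjective j
  rw [Category.assoc, Φ_π]
  by_cases h : i = 𝓜.succ j
  · subst h
    simp [iY, pY, pW]
  · simp [iY, pY, pW, biproduct.ι_π_ne _ h, biproduct.ι_π_ne_assoc _ h]

theorem iW_Φ (i : 𝓜.ι) :
    𝓜.iW I i ≫ 𝓜.Φ I = 𝓜.φa I i ≫ 𝓜.iT i + 𝓜.φb I i ≫ 𝓜.iT (𝓜.succ i) := by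
  refine biproduct.hom_ext _ _ fun j => ?_
  obtain ⟨j, rfl⟩ := 𝓜.succ.surjective j
  have h1 : 𝓜.iW I i ≫ 𝓜.pW I (𝓜.succ j) ≫ 𝓜.φa I _ =
      𝓜.φa I i ≫ 𝓜.iT i ≫ biproduct.π _ (𝓜.succ j) := by
    by_cases h : i = 𝓜.succ j
    · subst h
      simp [iW, pW]
    · simp [iW, pW, biproduct.ι_π_ne _ h, biproduct.ι_π_ne_assoc _ h]
  have h2 : 𝓜.iW I i ≫ 𝓜.pW I j ≫ 𝓜.φb I _ =
      𝓜.φb I i ≫ 𝓜.iT _ ≫ biproduct.π _ (𝓜.succ j) := by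
    by_cases h : i = j
    · subst h
      simp [iW, pW]
    · simp [iW, pW, biproduct.ι_π_ne _ (𝓜.succ.injective.ne h), biproduct.ι_π_ne_assoc _ h]
  rw [Category.assoc, Φ_π, Preadditive.comp_add, Preadditive.comp_add, h1, h2]
  simp [iW, pY]

theorem th_inn (i : 𝓜.ι) : 𝓜.Le.L.map (𝓜.th i) ≫ 𝓜.Le.L.map (𝓜.inn i) = 0 :=
  𝓜.exe.zero _ (𝓜.dist i)

theorem out_th (i : 𝓜.ι) :
    𝓜.Le.L.map (𝓜.out i) ≫ 𝓜.Le.L.map ((𝓜.th i)⟦(1 : ℤ)⟧') = 0 := by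
  have : 𝓜.out i ≫ (𝓜.th i)⟦(1 : ℤ)⟧' = 0 := comp_distTriang_mor_zero₃₁ _ (𝓜.dist i)
  rw [← Functor.map_comp, this, Functor.map_zero]

theorem ex_inn {N : T} {i : 𝓜.ι} (v : N ⟶ 𝓜.Le.L.obj (𝓜.Y i))
    (h : v ≫ 𝓜.Le.L.map (𝓜.out i) = 0) : ∃ x, v = x ≫ 𝓜.Le.L.map (𝓜.inn i) :=
  𝓜.exe.co _ (rot_of_distTriang _ (𝓜.dist i)) _ v h

theorem ex_th {N : T} {i : 𝓜.ι} (v : N ⟶ 𝓜.Le.L.obj (𝓜.P i))
    (h : v ≫ 𝓜.Le.L.map (𝓜.inn i) = 0) : ∃ x, v = x ≫ 𝓜.Le.L.map (𝓜.th i) :=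
  𝓜.exe.co _ (𝓜.dist i) _ v h

theorem cmb_φa {N : T} {i : 𝓜.ι} (z : N ⟶ 𝓜.J i) (n : I.Λ →₀ ℤ) :
    cmb z n ≫ 𝓜.φa I i = (z ≫ 𝓜.g i (lc I.fc n)) ≫ 𝓜.Le.L.map (𝓜.inn i) := by
  rw [φa, ← Category.assoc, cmb_desc]

theorem cmb_φb {N : T} {i : 𝓜.ι} (z : N ⟶ 𝓜.J i) (n : I.Λ →₀ ℤ) :
    cmb z n ≫ 𝓜.φb I i ≫ 𝓜.Le.L.map (𝓜.out _) = z ≫ 𝓜.g' i (lc I.fq n) := by
  rw [φb_out, cmb_desc]

/-- composition with the gluing map -/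
abbrev Φh (N : T) : (N ⟶ 𝓜.Src I) →+ (N ⟶ 𝓜.Tgt) := Preadditive.rightComp N (𝓜.Φ I)

theorem memY {N : T} {i : 𝓜.ι} (y : N ⟶ 𝓜.Y i) : (y ≫ 𝓜.Le.u _) ≫ 𝓜.iT i ∈ (𝓜.Φh I N).range :=
  ⟨y ≫ 𝓜.iY I i, by rw [Category.assoc, ← iY_Φ _ I, ← Category.assoc]; rfl⟩

theorem memW {N : T} {i : 𝓜.ι} (w : N ⟶ 𝓜.W I i) :
    (w ≫ 𝓜.φa I i) ≫ 𝓜.iT i + (w ≫ 𝓜.φb I i) ≫ 𝓜.iT _ ∈ (𝓜.Φh I N).range :=
  ⟨w ≫ 𝓜.iW I i, by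
    rw [Category.assoc, Category.assoc, ← Preadditive.comp_add, ← iW_Φ, ← Category.assoc]; rfl⟩

variable {d : ℤ} (hd : 0 ≤ d)

include hd

theorem uinj (i : 𝓜.ι) (x : Sph T d ⟶ (𝓜.P i)⟦(1 : ℤ)⟧) (h : x ≫ 𝓜.Le.u _ = 0) : x = 0 := by
  obtain ⟨j, rfl⟩ := 𝓜.succ.surjective i
  by_cases hZ : 𝓜.Z d j
  · exact (𝓜.Z_P' d j hZ).1 x
  · obtain ⟨z, -, -, h2⟩ := 𝓜.crd d hd j hZ
    exact h2.uinj x h

omit hd in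
/-- the classes which come from `L_e P i` are in the image -/
def Pa (d : ℤ) (i : 𝓜.ι) : Prop := ∀ x : Sph T d ⟶ 𝓜.Le.L.obj (𝓜.P i),
  (x ≫ 𝓜.Le.L.map (𝓜.inn i)) ≫ 𝓜.iT i ∈ (𝓜.Φh I _).range

theorem lift {i : 𝓜.ι} (h : 𝓜.Pa I d i) (v : Sph T d ⟶ 𝓜.Le.L.obj (𝓜.Y i))
    (x : Sph T d ⟶ (𝓜.P i)⟦(1 : ℤ)⟧) (hx : x ≫ 𝓜.Le.u _ = v ≫ 𝓜.Le.L.map (𝓜.out i)) :
    v ≫ 𝓜.iT i ∈ (𝓜.Φh I _).range := by
  have h1 : x ≫ (𝓜.th i)⟦(1 : ℤ)⟧' = 0 := 𝓜.uinj hd i _ (by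
    rw [Category.assoc, ← 𝓜.Le.u_naturality, reassoc_of% hx, out_th, comp_zero])
  obtain ⟨y, hy⟩ : ∃ y : Sph T d ⟶ 𝓜.Y i, x = y ≫ 𝓜.out i :=
    Triangle.coyoneda_exact₁ _ (𝓜.dist i) x h1
  obtain ⟨x', h2⟩ := 𝓜.ex_inn (v - y ≫ 𝓜.Le.u _) (by
    rw [Preadditive.sub_comp, Category.assoc, 𝓜.Le.u_naturality, ← hx, hy, Category.assoc,
      sub_self])
  rw [eq_add_of_sub_eq h2, Preadditive.add_comp]
  exact add_mem (h x') (𝓜.memY I y)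

omit hd in
theorem pa_Z {i : 𝓜.ι} (h : 𝓜.Z d i) : 𝓜.Pa I d i := fun x => by
  rw [(𝓜.Z_P d i h).2 x, zero_comp, zero_comp]
  exact zero_mem _

theorem pa_step {i : 𝓜.ι} (h : 𝓜.Pa I d (𝓜.succ i)) : 𝓜.Pa I d i := by
  by_cases hZ : 𝓜.Z d i
  · exact 𝓜.pa_Z I hZ
  obtain ⟨z, -, h1, h2⟩ := 𝓜.crd d hd i hZ
  intro x
  obtain ⟨f, hf, rfl⟩ := h1.surj x
  obtain ⟨n, z', k1, k2, k3⟩ := I.cok f hf
  obtain ⟨x₀, e0⟩ := h1.of_ge (sub_mem (sub_mem hf (lc_inv I.fc_inv n)) (th_inv 𝒜 k1)) k2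
  obtain ⟨x₁, e1⟩ := h2.of_ge (lc_inv I.fq_inv n) k3
  have h3 := 𝓜.lift I hd h (cmb z n ≫ 𝓜.φb I i) x₁ (by rw [e1, Category.assoc, cmb_φb])
  have h4 : (z ≫ 𝓜.g i f) ≫ 𝓜.Le.L.map (𝓜.inn i) =
      (x₀ ≫ 𝓜.inn i) ≫ 𝓜.Le.u _ + cmb z n ≫ 𝓜.φa I i := by
    rw [Category.assoc x₀, ← 𝓜.Le.u_naturality, ← Category.assoc x₀, e0, cmb_φa, map_sub, map_sub,
      ← 𝓜.g_th]
    simp [th_inn]
  rw [h4, Preadditive.add_comp]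
  exact add_mem (𝓜.memY I _) (by simpa using sub_mem (𝓜.memW I (cmb z n)) h3)

theorem pa (i : 𝓜.ι) : 𝓜.Pa I d i := by
  rcases 𝓜.Z_up d i with h | h | h
  · exact 𝓜.pa_Z I h
  · exact 𝓜.pa_step I hd (𝓜.pa_Z I h)
  · exact 𝓜.pa_step I hd (𝓜.pa_step I hd (𝓜.pa_Z I h))

theorem mem_all (i : 𝓜.ι) (v : Sph T d ⟶ 𝓜.Le.L.obj (𝓜.Y i)) : v ≫ 𝓜.iT i ∈ (𝓜.Φh I _).range := by
  obtain ⟨i, rfl⟩ := 𝓜.succ.surjective i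
  by_cases hZ : 𝓜.Z d i
  · exact 𝓜.lift I hd (𝓜.pa I hd _) v 0 (zero_comp.trans ((𝓜.Z_P' d i hZ).2 _).symm)
  obtain ⟨z, -, -, h2⟩ := 𝓜.crd d hd i hZ
  obtain ⟨f, hf, e⟩ := h2.surj (v ≫ 𝓜.Le.L.map (𝓜.out _))
  obtain ⟨n, k1, k2⟩ := I.ker f hf (h2.inj _ (th_inv 𝒜 hf) (by
    rw [← 𝓜.g'_th, reassoc_of% e, out_th, comp_zero]))
  obtain ⟨x₁, e1⟩ := h2.of_ge (sub_mem hf (lc_inv I.fq_inv n)) k2
  have h3 := 𝓜.lift I hd (𝓜.pa I hd _) (v - cmb z n ≫ 𝓜.φb I i) x₁ (by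
    rw [e1, Preadditive.sub_comp, Category.assoc, cmb_φb, ← e, map_sub, Preadditive.comp_sub])
  have h4 := 𝓜.memW I (cmb z n)
  rw [cmb_φa, k1, map_zero, comp_zero, zero_comp, zero_comp, zero_add] at h4
  simpa using add_mem h3 h4

/-- the gluing map is onto in degrees `≥ 0` -/
theorem Φ_surj (v : Sph T d ⟶ 𝓜.Tgt) : ∃ x, x ≫ 𝓜.Φ I = v := by
  have : v ∈ (𝓜.Φh I _).range := by
    rw [← Category.comp_id v, ← biproduct.total, Preadditive.comp_sum]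
    exact sum_mem fun i _ => Category.assoc v _ _ ▸ 𝓜.mem_all I hd i _
  exact this

omit hd in
theorem ker_eq {N : T} {x : N ⟶ 𝓜.Src I} (h : x ∈ (𝓜.Φh I N).ker) (i : 𝓜.ι) :
    (x ≫ 𝓜.pY I (𝓜.succ i)) ≫ 𝓜.Le.u _ + (x ≫ 𝓜.pW I (𝓜.succ i)) ≫ 𝓜.φa I _ +
      (x ≫ 𝓜.pW I i) ≫ 𝓜.φb I i = 0 := by
  have h1 : x ≫ 𝓜.Φ I = 0 := h
  simp only [Category.assoc, ← Preadditive.comp_add, ← Φ_π, reassoc_of% h1, zero_comp]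

omit hd in
/-- the component in `W i` takes finitely many values on the kernel -/
def Fw (d : ℤ) (i : 𝓜.ι) : Prop :=
  (Preadditive.rightComp (Sph T d) (𝓜.pW I i) '' (𝓜.Φh I (Sph T d)).ker).Finite

omit hd in
theorem fw_Z {i : 𝓜.ι} (h : 𝓜.Z d i) : 𝓜.Fw I d i :=
  (Set.finite_singleton 0).subset fun x _ => 𝓜.Z_J d i h _ x

theorem of_out {i : 𝓜.ι} {y : Sph T d ⟶ 𝓜.Y i} (h : (y ≫ 𝓜.Le.u _) ≫ 𝓜.Le.L.map (𝓜.out i) = 0) :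
    ∃ x : Sph T d ⟶ 𝓜.P i, y = x ≫ 𝓜.inn i :=
  Triangle.coyoneda_exact₃ _ (𝓜.dist i) y (𝓜.uinj hd i _ (by
    rwa [Category.assoc, 𝓜.Le.u_naturality, ← Category.assoc] at h))

theorem fw_step {j : 𝓜.ι} (h : 𝓜.Fw I d j) : 𝓜.Fw I d (𝓜.succ j) := by
  by_cases hZ : 𝓜.Z d (𝓜.succ j)
  · exact 𝓜.fw_Z I hZ
  obtain ⟨z, hz, h1, h2⟩ := 𝓜.crd d hd _ hZ
  obtain ⟨a, ha⟩ := h1.lat
  obtain ⟨a', ha'⟩ := h2.lat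
  obtain ⟨s, hs⟩ := I.fin (a + a')
  refine fin_step _ _ _ h ((s.finite_toSet.image (cmb z)).subset ?_)
  rintro _ ⟨x, ⟨hx, h0⟩, rfl⟩
  obtain ⟨n, hn⟩ := hz _ (x ≫ 𝓜.pW I _)
  have e1 := 𝓜.ker_eq I hx j
  have e2 := congrArg (· ≫ 𝓜.Le.L.map (𝓜.out _)) (𝓜.ker_eq I hx (𝓜.succ j))
  rw [show x ≫ 𝓜.pW I j = 0 from h0, zero_comp, add_zero, hn] at e1
  simp only [hn, Preadditive.add_comp, Category.assoc _ (𝓜.φa I _), Category.assoc _ (𝓜.φb I _),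
    φa_out, cmb_φb, comp_zero, add_zero, zero_comp] at e2
  obtain ⟨x₀, e3⟩ := 𝓜.of_out hd (y := x ≫ 𝓜.pY I _) (by
    rw [eq_neg_of_add_eq_zero_left e1, Preadditive.neg_comp, Category.assoc, φa_out, comp_zero,
      neg_zero])
  rw [e3, Category.assoc, ← 𝓜.Le.u_naturality, ← Category.assoc, cmb_φa,
    ← Preadditive.add_comp] at e1
  obtain ⟨x₂, e4⟩ := 𝓜.ex_th _ e1
  obtain ⟨z', k1, rfl⟩ := h1.surj x₂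
  obtain ⟨n₀, k2, m, rfl⟩ := hs n (KK.ge_mono (by omega) ((ha' _ (lc_inv I.fq_inv n)).2
    ⟨-(x ≫ 𝓜.pY I _) ≫ 𝓜.out _, by
      rw [← eq_neg_of_add_eq_zero_right e2 |>.symm, Preadditive.neg_comp, Category.assoc,
        Category.assoc _ (𝓜.Le.u _), 𝓜.Le.u_naturality]⟩))
    ⟨z', k1, KK.ge_mono (by omega) ((ha _ (sub_mem (lc_inv I.fc_inv n) (th_inv 𝒜 k1))).2 ⟨-x₀, by
      rw [map_sub, Preadditive.comp_sub, ← 𝓜.g_th, ← Category.assoc, ← e4]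
      simp⟩)⟩
  exact ⟨n₀, k2, (hn.trans (cmb_p z (𝓜.pJ _) _ _)).symm⟩

theorem fw (i : 𝓜.ι) : 𝓜.Fw I d i := by
  obtain ⟨i, rfl⟩ := (𝓜.succ.surjective.comp 𝓜.succ.surjective) i
  have := 𝓜.Z_down d (𝓜.succ (𝓜.succ i))
  simp only [Equiv.symm_apply_apply] at this
  rcases this with h | h | h
  · exact 𝓜.fw_Z I h
  · exact 𝓜.fw_step I hd (𝓜.fw_Z I h)
  · exact 𝓜.fw_step I hd (𝓜.fw_step I hd (𝓜.fw_Z I h))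

theorem fy (i : 𝓜.ι) : {y : Sph T d ⟶ 𝓜.Y i | y ≫ 𝓜.Le.u _ = 0}.Finite := by
  by_cases hZ : 𝓜.Z d i
  · refine (Set.finite_singleton 0).subset fun y hy => ?_
    obtain ⟨x, rfl⟩ := 𝓜.of_out hd (y := y) (by rw [hy, zero_comp])
    rw [(𝓜.Z_P d i hZ).1 x, zero_comp]
    rfl
  obtain ⟨z, -, h1, -⟩ := 𝓜.crd d hd _ hZ
  obtain ⟨a, ha⟩ := h1.lat
  obtain ⟨s, hs⟩ := 𝒜.Θ.cross_fin a
  refine (((s.finite_toSet.image fun f => z ≫ 𝓜.g i f).preimage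
    (f := fun x : Sph T d ⟶ 𝓜.P i => x ≫ 𝓜.Le.u _) fun x _ x' _ e => sub_eq_zero.1 (h1.uinj _ (by
      rw [Preadditive.sub_comp, sub_eq_zero]; exact e))).image (· ≫ 𝓜.inn i)).subset fun y hy => ?_
  obtain ⟨x₀, rfl⟩ := 𝓜.of_out hd (y := y) (by rw [hy, zero_comp])
  obtain ⟨x₂, e4⟩ := 𝓜.ex_th (x₀ ≫ 𝓜.Le.u _) (by
    rw [Category.assoc, 𝓜.Le.u_naturality, ← Category.assoc]; exact hy)
  obtain ⟨z', k1, rfl⟩ := h1.surj x₂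
  rw [Category.assoc, 𝓜.g_th] at e4
  obtain ⟨w, k2, z'', k3, k4, k5⟩ := hs z' k1 ((ha _ (th_inv 𝒜 k1)).2 ⟨x₀, e4⟩)
  obtain ⟨x₃, e5⟩ := (ha _ k3).1 k4
  have h0 : 𝓜.th i ≫ 𝓜.inn i = 0 := comp_distTriang_mor_zero₁₂ _ (𝓜.dist i)
  refine ⟨x₀ - x₃ ≫ 𝓜.th i, ⟨w, k2, ?_⟩, by simp [h0]⟩
  beta_reduce
  rw [Preadditive.sub_comp, e4, Category.assoc, ← 𝓜.Le.u_naturality, reassoc_of% e5, 𝓜.g_th, k5,
    map_add, Preadditive.comp_add, add_sub_cancel_right]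

/-- the kernel of the gluing map is finite in degrees `≥ 0` -/
theorem ker_fin : ((𝓜.Φh I (Sph T d)).ker : Set (Sph T d ⟶ 𝓜.Src I)).Finite := by
  have := fin_step (𝓜.Φh I (Sph T d)).ker
    (AddMonoidHom.pi fun i => Preadditive.rightComp (Sph T d) (𝓜.pW I i)) (AddMonoidHom.id _)
    ((Set.Finite.pi' (𝓜.fw I hd)).subset (by
      rintro _ ⟨x, hx, rfl⟩ i
      exact ⟨x, hx, rfl⟩))
    (((Set.Finite.pi' (𝓜.fy hd)).image fun y => 𝓜.mk' I y 0).subset (by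
      rintro _ ⟨x, ⟨hx, h0⟩, rfl⟩
      have h1 : ∀ i, x ≫ 𝓜.pW I i = 0 := congrFun h0
      refine ⟨fun i => x ≫ 𝓜.pY I i, fun i => ?_, 𝓜.src_ext I (by simp) (by simp [h1])⟩
      obtain ⟨i, rfl⟩ := 𝓜.succ.surjective i
      simpa [h1] using 𝓜.ker_eq I hx i))
  simpa using this

omit hd in
/-- **Row TA-FT** -/
theorem finite_pi (d : ℤ) (hd : 0 ≤ d) : Finite (Sph T d ⟶ 𝓜.Yf I) := by
  refine Set.finite_univ_iff.1 (Set.Finite.of_finite_image (f := (· ≫ 𝓜.fι I))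
    ((𝓜.ker_fin I hd).subset ?_) fun x _ x' _ e => sub_eq_zero.1 ?_)
  · rintro _ ⟨x, -, rfl⟩
    have : 𝓜.fι I ≫ 𝓜.Φ I = 0 := comp_distTriang_mor_zero₁₂ _ (𝓜.fdist I)
    exact (Category.assoc _ _ _).trans (by rw [this, comp_zero])
  obtain ⟨y, hy⟩ : ∃ y : (Sph T d)⟦(1 : ℤ)⟧ ⟶ 𝓜.Tgt, (x - x')⟦(1 : ℤ)⟧' = y ≫ 𝓜.fδ I :=
    Triangle.coyoneda_exact₁ _ (𝓜.fdist I) _ (by
      change _ ≫ (𝓜.fι I)⟦(1 : ℤ)⟧' = 0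
      rw [← Functor.map_comp, Preadditive.sub_comp, sub_eq_zero.2 e, Functor.map_zero])
  let ε := (shiftFunctorAdd T d 1).app (𝟙_ T)
  obtain ⟨s, hs⟩ := 𝓜.Φ_surj I (d := d + 1) (by omega) (ε.hom ≫ y)
  have h0 : 𝓜.Φ I ≫ 𝓜.fδ I = 0 := comp_distTriang_mor_zero₂₃ _ (𝓜.fdist I)
  refine (shiftFunctor T (1 : ℤ)).map_injective ?_
  rw [hy, Functor.map_zero, ← cancel_epi ε.hom, ← reassoc_of% hs, h0, comp_zero, comp_zero]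

end MD

end Vale.Agent.P221X.TA
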