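import Vale.Agent.P221X.Base.Top
import Vale.Agent.P221X.NM.TopT

/-!
# P221X, blocks TOP-A / TOP-B: the middle interface

* `Idx 𝒜` : an `𝔽_p`-indexing of the families `c`, `q`, `pol` of `ThetaData`;
* `MD 𝒜 b V` : the summands `P i = A'⟦s i⟧`, `Y i = P i / θ`, `J i = J⟦s i⟧` with coordinates
  (no shifts occur any more);
* `MD.Yf` : the glued object, the fibre of `Φ : ⨁ Y ⊞ ⨁ W ⟶ ⨁ L_e Y`.
-/

noncomputable section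

open CategoryTheory MonoidalCategory Limits Pretriangulated MulOpposite

set_option linter.unusedSectionVars false

namespace Vale.Agent.P221X.TA

open Vale.Agent.P251 Vale.Agent.P251.T Vale.Agent.P251.S NM

variable {p : ℕ} {F : Type} [Field F] {D : GD p F} {R : Type} [Ring R] [Algebra F R]

/-- integral linear combinations -/
abbrev lc {Λ : Type} (f : Λ → KK F) : (Λ →₀ ℤ) →ₗ[ℤ] KK F := Finsupp.linearCombination ℤ f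

/-- The families of `ThetaData`, indexed by a basis over the prime field. -/
structure Idx {S : RD D R} (𝒜 : AlgA S) where
  Λ : Type
  fc : Λ → KK F
  fq : Λ → KK F
  fc_inv : ∀ l, fc l ∈ KK.inv (p + 1)
  fq_inv : ∀ l, fq l ∈ KK.inv (p + 1)
  fq_ker : ∀ l, S.op 𝒜.θ (fq l) = 0
  ker : ∀ f ∈ KK.inv (p + 1), S.op 𝒜.θ f = 0 → ∃ n, lc fc n = 0 ∧ f - lc fq n ∈ KK.ge 0
  cok : ∀ f ∈ KK.inv (p + 1), ∃ n, ∃ z ∈ KK.inv (p + 1),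
    f - lc fc n - S.op 𝒜.θ z ∈ KK.ge 0 ∧ lc fq n ∈ KK.ge 0
  fin : ∀ N : ℕ, ∃ s : Finset (Λ →₀ ℤ), ∀ n, lc fq n ∈ KK.ge (-N : ℤ) →
    (∃ z ∈ KK.inv (p + 1), lc fc n - S.op 𝒜.θ z ∈ KK.ge (-N : ℤ)) →
      ∃ n₀ ∈ s, ∃ m, n = n₀ + p • m
  glue : ∀ l, fq l - 𝒜.rho (fc l) ∈ Zx p

universe u

variable {T : Type u} [Category.{0} T] [Preadditive T] [HasZeroObject T] [HasShift T ℤ]
  [∀ n : ℤ, (shiftFunctor T n).Additive] [Pretriangulated T] [IsTriangulated T]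
  [MonoidalCategory T] [SymmetricCategory T] [TensorTriangulated T] [MonoidalClosed T]
  [HasCoproducts.{0} T] [HasProducts.{0} T] [StableCat T]

/-- the map `N ⟶ ∐ J` with the coefficients `n` with respect to `z : N ⟶ J` -/
def cmb {N J : T} (z : N ⟶ J) {I : Type} (n : I →₀ ℤ) : N ⟶ ∐ fun _ : I => J :=
  Finsupp.linearCombination ℤ (fun a => z ≫ Sigma.ι (fun _ : I => J) a) n

/-- `z` generates the maps from `N` to sums of copies of `J` -/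
def Gen {N J : T} (z : N ⟶ J) : Prop :=
  ∀ (I : Type) (x : N ⟶ ∐ fun _ : I => J), ∃ n, x = cmb z n

/-- `γ` identifies `K'` with `[N, L_e P]`, and `[N, P]` is the lattice `u ^ (-a) O ∩ K'`. -/
structure Crd (p : ℕ) {Ke : T} (Le : LocFunctor Ke) (N P : T)
    (γ : KK F → (N ⟶ Le.L.obj P)) : Prop where
  surj : ∀ x, ∃ f ∈ KK.inv (p + 1), γ f = x
  inj : ∀ f ∈ KK.inv (p + 1), γ f = 0 → f = 0
  lat : ∃ a : ℕ, ∀ f ∈ KK.inv (p + 1), f ∈ KK.ge (-a : ℤ) ↔ ∃ x : N ⟶ P, x ≫ Le.u P = γ f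
  uinj : ∀ x : N ⟶ P, x ≫ Le.u P = 0 → x = 0

/-- The middle data. -/
structure MD {S : RD D R} (𝒜 : AlgA S) (b V : T) where
  Kh : T
  Ke : T
  Lh : LocFunctor Kh
  Le : LocFunctor Ke
  bdd : ∀ (W : T) (N : ℤ), (∀ n ≥ N, ∀ x : Sph T n ⟶ W, x = 0) → Acyclic Kh W ∧ Acyclic Ke W
  ι : Type
  [fin : Fintype ι]
  [dec : DecidableEq ι]
  succ : ι ≃ ι
  P : ι → T
  th : ∀ i, P i ⟶ P i
  Y : ι → T
  inn : ∀ i, P i ⟶ Y i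
  out : ∀ i, Y i ⟶ (P i)⟦(1 : ℤ)⟧
  dist : ∀ i, Triangle.mk (th i) (inn i) (out i) ∈ distTriang T
  J : ι → T
  g : ∀ i, KK F →+ (J i ⟶ Le.L.obj (P i))
  g' : ∀ i, KK F →+ (J i ⟶ Le.L.obj ((P (succ i))⟦(1 : ℤ)⟧))
  g_th : ∀ i f, g i f ≫ Le.L.map (th i) = g i (S.op 𝒜.θ f)
  g'_th : ∀ i f, g' i f ≫ Le.L.map ((th (succ i))⟦(1 : ℤ)⟧') = g' i (S.op 𝒜.θ f)
  /-- the summand `i` is not seen in degree `d` -/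
  Z : ℤ → ι → Prop
  Z_J : ∀ d i, Z d i → ∀ I : Type, HZ (Sph T d) (∐ fun _ : I => J i)
  Z_P : ∀ d i, Z d i → HZ (Sph T d) (P i) ∧ HZ (Sph T d) (Le.L.obj (P i))
  Z_P' : ∀ d i, Z d i → HZ (Sph T d) ((P (succ i))⟦(1 : ℤ)⟧) ∧
    HZ (Sph T d) (Le.L.obj ((P (succ i))⟦(1 : ℤ)⟧))
  crd : ∀ d ≥ 0, ∀ i, ¬ Z d i → ∃ z : Sph T d ⟶ J i, Gen z ∧
    Crd p Le (Sph T d) (P i) (fun f => z ≫ g i f) ∧
    Crd p Le (Sph T d) ((P (succ i))⟦(1 : ℤ)⟧) (fun f => z ≫ g' i f)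
  Z_up : ∀ d i, Z d i ∨ Z d (succ i) ∨ Z d (succ (succ i))
  Z_down : ∀ d i, Z d i ∨ Z d (succ.symm i) ∨ Z d (succ.symm (succ.symm i))
  pP : ∀ i, ((p : ℤ) ^ 2) • 𝟙 (P i) = 0
  pJ : ∀ i, (p : ℤ) • 𝟙 (J i) = 0
  P_V : ∀ i, IsZero (P i ⊗ V)
  LeP_V : ∀ i, IsZero (Le.L.obj (P i) ⊗ V)
  J_V : ∀ i, IsZero (J i ⊗ V)
  P_loc : ∀ i, IsLocal Kh (P i)
  LeP_acyc : ∀ i, Acyclic Kh (Le.L.obj (P i))
  J_acyc : ∀ i, Acyclic Kh (J i)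
  J_loc : ∀ i (I : Type), IsLocal Ke (∐ fun _ : I => J i)
  TD : ι → TriData T R
  M : ι → T
  cell : ∀ i (k : ℤ), haveI := 𝒜.dom; GoodCell 𝒜.O (TD i) (Lh.L.obj (b⟦k⟧))
  lat : ∀ i (k : ℤ), FinKer (frac Lh.unit Le.unit (M i) (b⟦k⟧)) ∧
    FinCoker (frac Lh.unit Le.unit (M i) (b⟦k⟧))
  toP : ∀ i, P i ⟶ (TD i).P
  th_toP : ∀ i, th i ≫ toP i = toP i ≫ (TD i).lam 𝒜.θ
  κ : ∀ i, (M i ⟶ Le.L.obj (TD i).P) →+ KK F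
  κ_lam : ∀ i x r, κ i (x ≫ Le.L.map ((TD i).lam r)) = S.op r (κ i x)
  κ_lat : ∀ i, ∃ N : ℕ, ∀ x : M i ⟶ (TD i).P, κ i (x ≫ Le.u _) ∈ KK.ge (-N : ℤ)
  M_van : ∀ i, HZ (M i) ((TD i).P⟦(1 : ℤ)⟧) ∧ HZ (M i) (Le.L.obj ((TD i).P⟦(1 : ℤ)⟧))
  κ' : ∀ i, (M i ⟶ Le.L.obj ((TD (succ i)).P⟦(1 : ℤ)⟧)) →+ KK F
  κ'_lam : ∀ i x r, κ' i (x ≫ Le.L.map (((TD (succ i)).lam r)⟦(1 : ℤ)⟧')) = S.op r (κ' i x)
  z : ∀ i, M i ⟶ J i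
  z_gen : ∀ i, Gen (z i)
  κ_g : ∀ i, ∀ f ∈ KK.inv (p + 1), κ i (z i ≫ g i f ≫ Le.L.map (toP i)) = f
  κ'_g : ∀ i, ∀ f ∈ KK.inv (p + 1),
    κ' i (z i ≫ g' i f ≫ Le.L.map ((toP (succ i))⟦(1 : ℤ)⟧')) = f
  M_J : ∀ i (I : Type), HZ (M (succ i)) (∐ fun _ : I => J i)
  P'_van : ∀ i, HZ (TD i).P' ((P i)⟦(1 : ℤ)⟧)
  rig : ∀ i (y : (TD i).P' ⟶ P i), op ((TD i).eps (y ≫ toP i)) • 𝒜.O.inv 𝒜.θ ≠ 0 →
    (Set.range fun x : M i ⟶ Le.L.obj (TD i).P' =>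
      𝒜.rho (κ i (x ≫ Le.L.map (y ≫ toP i)))).Infinite
  nonzero : ∃ (i : ι) (y : (TD i).P' ⟶ P i), op ((TD i).eps (y ≫ toP i)) • 𝒜.O.inv 𝒜.θ ≠ 0

attribute [instance] MD.fin MD.dec

theorem cmb_desc {N J Q : T} (z : N ⟶ J) {I : Type} (n : I →₀ ℤ) (γ : KK F →+ (J ⟶ Q))
    (f : I → KK F) : cmb z n ≫ Sigma.desc (fun a => γ (f a)) = z ≫ γ (lc f n) := by
  simp only [cmb, lc, Finsupp.linearCombination_apply, Finsupp.sum, Preadditive.sum_comp,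
    map_sum, Preadditive.comp_sum, map_zsmul, Preadditive.zsmul_comp, Preadditive.comp_zsmul,
    Category.assoc, Sigma.ι_desc]

namespace MD

variable {S : RD D R} {𝒜 : AlgA S} {b V : T} (𝓜 : MD 𝒜 b V) (I : Idx 𝒜)

theorem exe : Ex 𝓜.Le.L := Ex.of_isTriangulated _

/-- the sums of copies of `J i` -/
abbrev W (i : 𝓜.ι) : T := ∐ fun _ : I.Λ => 𝓜.J i

/-- the cokernel part of the gluing map -/
def φa (i : 𝓜.ι) : 𝓜.W I i ⟶ 𝓜.Le.L.obj (𝓜.Y i) :=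
  Sigma.desc (fun l => 𝓜.g i (I.fc l)) ≫ 𝓜.Le.L.map (𝓜.inn i)

theorem exists_φb (i : 𝓜.ι) : ∃ f : 𝓜.W I i ⟶ 𝓜.Le.L.obj (𝓜.Y (𝓜.succ i)),
    Sigma.desc (fun l => 𝓜.g' i (I.fq l)) = f ≫ 𝓜.Le.L.map (𝓜.out (𝓜.succ i)) :=
  𝓜.exe.co _ (rot_of_distTriang _ (rot_of_distTriang _ (𝓜.dist (𝓜.succ i)))) _ _ (by
    change _ ≫ 𝓜.Le.L.map (-(𝓜.th (𝓜.succ i))⟦(1 : ℤ)⟧') = 0
    refine Sigma.hom_ext _ _ fun l => ?_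
    rw [Sigma.ι_desc_assoc, Functor.map_neg, Preadditive.comp_neg, 𝓜.g'_th, I.fq_ker, map_zero,
      neg_zero, comp_zero])

/-- the kernel part of the gluing map -/
def φb (i : 𝓜.ι) : 𝓜.W I i ⟶ 𝓜.Le.L.obj (𝓜.Y (𝓜.succ i)) := (𝓜.exists_φb I i).choose

theorem φb_out (i : 𝓜.ι) : 𝓜.φb I i ≫ 𝓜.Le.L.map (𝓜.out (𝓜.succ i)) =
    Sigma.desc fun l => 𝓜.g' i (I.fq l) := (𝓜.exists_φb I i).choose_spec.symm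

theorem φa_out (i : 𝓜.ι) : 𝓜.φa I i ≫ 𝓜.Le.L.map (𝓜.out i) = 0 := by
  have : 𝓜.inn i ≫ 𝓜.out i = 0 := comp_distTriang_mor_zero₂₃ _ (𝓜.dist i)
  rw [φa, Category.assoc, ← Functor.map_comp, this, Functor.map_zero, comp_zero]

/-- the source of the gluing map -/
abbrev Src : T := (⨁ 𝓜.Y) ⊞ ⨁ 𝓜.W I

/-- the target of the gluing map -/
abbrev Tgt : T := ⨁ fun i => 𝓜.Le.L.obj (𝓜.Y i)

/-- the components in `Y i` -/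
def pY (i : 𝓜.ι) : 𝓜.Src I ⟶ 𝓜.Y i := biprod.fst ≫ biproduct.π _ i

/-- the components in `W i` -/
def pW (i : 𝓜.ι) : 𝓜.Src I ⟶ 𝓜.W I i := biprod.snd ≫ biproduct.π _ i

/-- the gluing map -/
def Φ : 𝓜.Src I ⟶ 𝓜.Tgt :=
  biproduct.lift fun i => 𝓜.pY I i ≫ 𝓜.Le.u (𝓜.Y i) + 𝓜.pW I i ≫ 𝓜.φa I i +
    𝓜.pW I (𝓜.succ.symm i) ≫ 𝓜.φb I (𝓜.succ.symm i) ≫
      eqToHom (by rw [Equiv.apply_symm_apply])

theorem Φ_π (i : 𝓜.ι) : 𝓜.Φ I ≫ biproduct.π _ (𝓜.succ i) =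
    𝓜.pY I (𝓜.succ i) ≫ 𝓜.Le.u _ + 𝓜.pW I (𝓜.succ i) ≫ 𝓜.φa I (𝓜.succ i) +
      𝓜.pW I i ≫ 𝓜.φb I i := by
  have key : ∀ (j : 𝓜.ι) (h : j = i), 𝓜.pW I j ≫ 𝓜.φb I j ≫ eqToHom (by rw [h]) =
      𝓜.pW I i ≫ 𝓜.φb I i := by
    rintro j rfl
    simp
  rw [Φ, biproduct.lift_π, key _ (Equiv.symm_apply_apply _ _)]

/-- a map to `Src` with given components -/
def mk' {N : T} (y : ∀ i, N ⟶ 𝓜.Y i) (w : ∀ i, N ⟶ 𝓜.W I i) : N ⟶ 𝓜.Src I :=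
  biprod.lift (biproduct.lift y) (biproduct.lift w)

@[simp, reassoc] theorem mk'_pY {N : T} (y : ∀ i, N ⟶ 𝓜.Y i) (w : ∀ i, N ⟶ 𝓜.W I i) (i : 𝓜.ι) :
    𝓜.mk' I y w ≫ 𝓜.pY I i = y i := by simp [mk', pY]

@[simp, reassoc] theorem mk'_pW {N : T} (y : ∀ i, N ⟶ 𝓜.Y i) (w : ∀ i, N ⟶ 𝓜.W I i) (i : 𝓜.ι) :
    𝓜.mk' I y w ≫ 𝓜.pW I i = w i := by simp [mk', pW]

theorem src_ext {N : T} {x x' : N ⟶ 𝓜.Src I} (h : ∀ i, x ≫ 𝓜.pY I i = x' ≫ 𝓜.pY I i)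
    (h' : ∀ i, x ≫ 𝓜.pW I i = x' ≫ 𝓜.pW I i) : x = x' :=
  biprod.hom_ext _ _ (biproduct.hom_ext _ _ fun i => by simpa [pY] using h i)
    (biproduct.hom_ext _ _ fun i => by simpa [pW] using h' i)

theorem exists_fib : ∃ (X : T) (f : X ⟶ 𝓜.Src I) (h : 𝓜.Tgt ⟶ X⟦(1 : ℤ)⟧),
    Triangle.mk f (𝓜.Φ I) h ∈ distTriang T := distinguished_cocone_triangle₁ _

/-- the glued object -/
def Yf : T := (𝓜.exists_fib I).choose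

/-- the map to `Src` -/
def fι : 𝓜.Yf I ⟶ 𝓜.Src I := (𝓜.exists_fib I).choose_spec.choose

/-- the boundary map -/
def fδ : 𝓜.Tgt ⟶ (𝓜.Yf I)⟦(1 : ℤ)⟧ := (𝓜.exists_fib I).choose_spec.choose_spec.choose

theorem fdist : Triangle.mk (𝓜.fι I) (𝓜.Φ I) (𝓜.fδ I) ∈ distTriang T :=
  (𝓜.exists_fib I).choose_spec.choose_spec.choose_spec

end MD

/-- a connective cover, as given by `HasCov` -/
structure Cov (Y X : T) where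
  W : T
  c : X ⟶ Y
  d : Y ⟶ W
  w : W ⟶ X⟦(1 : ℤ)⟧
  dist : Triangle.mk c d w ∈ distTriang T
  conn : ∀ n < 0, ∀ x : Sph T n ⟶ X, x = 0
  cocon : ∀ n ≥ 0, ∀ x : Sph T n ⟶ W, x = 0
  orth : ∀ (k : ℤ) (f : X ⟶ W⟦k⟧), k ≤ 0 → f = 0

theorem exists_cov (h : HasCov T) (Y : T) : ∃ X, Nonempty (Cov Y X) := by
  obtain ⟨X, W, c, d, w, h1, h2, h3, h4⟩ := h Y
  exact ⟨X, ⟨⟨W, c, d, w, h1, h2, h3, h4⟩⟩⟩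

end Vale.Agent.P221X.TA
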