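import Vale.Agent.P221X.TA.Mid

/-!
# P221X, row TA-IDX: the families of `ThetaData` indexed by a basis over the prime field
-/

noncomputable section

namespace Vale.Agent.P221X.TA

open Finsupp (linearCombination)

theorem exists_gen' (p : ℕ) [Fact p.Prime] (M : Type) [AddCommGroup M] [Module (ZMod p) M] :
    ∃ (Λ : Type) (B : Λ → M), Function.Surjective (linearCombination ℤ B) ∧
      ∀ n, linearCombination ℤ B n = 0 → ∃ m, n = p • m := by
  let B := Module.Basis.ofVectorSpace (ZMod p) M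
  have key : ∀ n l, B.repr (linearCombination ℤ B n) l = (n l : ZMod p) := fun n l => by
    classical
    induction n using Finsupp.induction_linear with
    | zero => simp
    | add f g hf hg => simp only [map_add, Finsupp.add_apply, hf, hg, Int.cast_add]
    | single a k =>
      rw [Finsupp.linearCombination_single, map_zsmul, B.repr_self]
      by_cases e : a = l <;> simp [e]
  refine ⟨_, B, fun x => ⟨(B.repr x).mapRange (fun a => (a.cast : ℤ)) ZMod.cast_zero,
    B.repr.injective (Finsupp.ext fun l => by rw [key]; simp)⟩, fun n hn =>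
    ⟨n.mapRange (· / p) (by simp), Finsupp.ext fun l => ?_⟩⟩
  have := key n l
  rw [hn, map_zero, Finsupp.zero_apply, eq_comm, ZMod.intCast_zmod_eq_zero_iff_dvd] at this
  simp [Int.mul_ediv_cancel' this]

/-- An abelian group killed by `p` is a free abelian group modulo `p`. -/
theorem exists_gen (p : ℕ) [Fact p.Prime] (M : Type) [AddCommGroup M] (h : ∀ x : M, p • x = 0) :
    ∃ (Λ : Type) (B : Λ → M), Function.Surjective (linearCombination ℤ B) ∧
      ∀ n, linearCombination ℤ B n = 0 → ∃ m, n = p • m :=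
  @exists_gen' p _ M _ (AddCommGroup.zmodModule h)

variable {p : ℕ} {F : Type} [Field F] {D : GD p F} {R : Type} [Ring R] [Algebra F R]

theorem lin_mem {I : Type} {f : I → KK F} {W : Submodule F (KK F)} (h : ∀ i, f i ∈ W)
    (a : I →₀ F) : linearCombination F f a ∈ W :=
  W.sum_mem fun i _ => W.smul_mem _ (h i)

theorem exists_idx [Fact p.Prime] [CharP F p] {S : RD D R} (𝒜 : AlgA S) : Nonempty (Idx 𝒜) := by
  let Θ := 𝒜.Θ
  obtain ⟨Λ, B, hs, hk⟩ := exists_gen p ((Θ.ι →₀ F) × (Θ.κ →₀ F)) fun x => by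
    rw [← Nat.cast_smul_eq_nsmul F, CharP.cast_eq_zero, zero_smul]
  let φc : (Θ.ι →₀ F) × (Θ.κ →₀ F) →ₗ[F] KK F := linearCombination F Θ.c ∘ₗ LinearMap.fst F _ _
  let φq : (Θ.ι →₀ F) × (Θ.κ →₀ F) →ₗ[F] KK F :=
    (linearCombination F Θ.q).coprod (linearCombination F Θ.pol)
  have hl : ∀ (φ : (Θ.ι →₀ F) × (Θ.κ →₀ F) →ₗ[F] KK F) n,
      lc (fun l => φ (B l)) n = φ (linearCombination ℤ B n) := fun φ n =>
    (Finsupp.apply_linearCombination ℤ φ.toAddMonoidHom.toIntLinearMap B n).symm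
  refine ⟨⟨Λ, fun l => φc (B l), fun l => φq (B l), fun l => lin_mem Θ.c_inv _,
    fun l => add_mem (lin_mem Θ.q_inv _) (lin_mem Θ.pol_inv _),
    fun l => LinearMap.mem_ker.1 (add_mem (lin_mem Θ.q_ker _) (lin_mem Θ.pol_ker _)),
    fun f hf h0 => ?_, fun f hf => ?_, fun N => ?_, fun l => ?_⟩⟩
  · obtain ⟨μ, hμ⟩ := Θ.ker_span f hf h0
    obtain ⟨n, hn⟩ := hs (0, μ)
    exact ⟨n, by rw [hl, hn]; simp [φc], by rw [hl, hn]; simpa [φq] using hμ⟩
  · obtain ⟨a, z, hz, ha⟩ := Θ.cok_span f hf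
    obtain ⟨n, hn⟩ := hs (a, 0)
    exact ⟨n, z, hz, by rw [hl, hn]; exact ha, by rw [hl, hn]; simpa [φq] using lin_mem Θ.q_ge a⟩
  · classical
    refine ⟨((Θ.cok_fin N).prod (Θ.pol_fin N)).toFinset.image (Function.surjInv hs),
      fun n h1 h2 => ?_⟩
    rw [hl] at h1 h2
    obtain ⟨m, hm⟩ := hk (n - Function.surjInv hs (linearCombination ℤ B n))
      (by rw [map_sub, Function.surjInv_eq hs, sub_self])
    refine ⟨_, Finset.mem_image_of_mem _ ((Set.Finite.mem_toFinset _).2 ⟨h2, ?_⟩), m,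
      eq_add_of_sub_eq' hm⟩
    exact (Submodule.add_mem_iff_right _ (KK.ge_mono (by omega) (lin_mem Θ.q_ge _))).1 h1
  · have : 𝒜.rho (φc (B l)) = linearCombination F Θ.q (B l).1 :=
      (Finsupp.apply_linearCombination F 𝒜.rho Θ.c _).trans
        (congrArg (fun v => linearCombination F v _) (funext 𝒜.rho_c))
    simpa [this, φq] using lin_mem 𝒜.pol_mem (B l).2

end Vale.Agent.P221X.TA
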