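import Vale.Agent.P221X.TA.Cd

/-!
# P221X, block TOP-C: the field `lat` of `ED` from homotopy groups
-/

noncomputable section

open CategoryTheory MonoidalCategory Limits Pretriangulated MulOpposite

set_option linter.unusedSectionVars false

namespace Vale.Agent.P221X.TA

open Vale.Agent.P251 Vale.Agent.P251.T Vale.Agent.P251.S NM

section Alg

variable {A B A' B' : Type*} [AddCommGroup A] [AddCommGroup B] [AddCommGroup A'] [AddCommGroup B']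

theorem finKer_congr {φ : A →+ B} {φ' : A' →+ B'} (a : A ≃+ A') (b : B ≃+ B')
    (h : ∀ x, φ' (a x) = b (φ x)) (hφ : FinKer φ) : FinKer φ' :=
  (hφ.image a).subset fun y hy => by
    obtain ⟨x, rfl⟩ := a.surjective y
    exact ⟨x, b.injective (by rw [← h, map_zero]; exact hy), rfl⟩

theorem finCoker_congr {φ : A →+ B} {φ' : A' →+ B'} (a : A ≃+ A') (b : B ≃+ B')
    (h : ∀ x, φ' (a x) = b (φ x)) (hφ : FinCoker φ) : FinCoker φ' := by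
  obtain ⟨s, hs, h'⟩ := hφ
  refine ⟨b '' s, hs.image b, fun y => ?_⟩
  obtain ⟨y, rfl⟩ := b.surjective y
  obtain ⟨x, f, hf, rfl⟩ := h' y
  exact ⟨a x, b f, ⟨f, hf, rfl⟩, by rw [map_add, h]⟩

end Alg

universe u

variable {T : Type u} [Category.{0} T] [Preadditive T] [HasZeroObject T] [HasShift T ℤ]
  [∀ n : ℤ, (shiftFunctor T n).Additive] [Pretriangulated T] [IsTriangulated T]
  [MonoidalCategory T] [SymmetricCategory T] [TensorTriangulated T] [MonoidalClosed T]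
  [HasCoproducts.{0} T] [HasProducts.{0} T] [StableCat T] {Kh Ke : T} (Lh : LocFunctor Kh)
  (Le : LocFunctor Ke)

/-- finite kernel and cokernel of the fracture map -/
def Lat (N Z : T) : Prop :=
  FinKer (frac Lh.unit Le.unit N Z) ∧ FinCoker (frac Lh.unit Le.unit N Z)

/-- precomposition -/
def prec {N N' : T} (e : N' ⟶ N) (Q : T) : (N ⟶ Q) →+ (N' ⟶ Q) := Preadditive.leftComp Q e

theorem prec_apply {N N' Q : T} (e : N' ⟶ N) (x : N ⟶ Q) : prec e Q x = e ≫ x := rfl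

variable {Lh Le}

theorem frac_prec {N N' : T} (e : N' ⟶ N) (Z : T)
    (x : (N ⟶ Le.L.obj Z) × (N ⟶ Lh.L.obj Z)) :
    frac Lh.unit Le.unit N' Z ((prec e _).prodMap (prec e _) x) =
      prec e _ (frac Lh.unit Le.unit N Z x) := by
  simp [frac_apply, prec_apply]

theorem Lat.ext {Δ : Triangle T} (hΔ : Δ ∈ distTriang T) {Z : T}
    (h₀ : Lat Lh Le Δ.invRotate.obj₁ Z) (h₁ : Lat Lh Le Δ.obj₁ Z) (h₃ : Lat Lh Le Δ.obj₃ Z)
    (h₄ : Lat Lh Le Δ.rotate.obj₃ Z) : Lat Lh Le Δ.obj₂ Z := by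
  have ex : ∀ {Δ : Triangle T}, (Δ ∈ distTriang T) →
      ∀ x : (Δ.obj₂ ⟶ Le.L.obj Z) × (Δ.obj₂ ⟶ Lh.L.obj Z),
        (prec Δ.mor₁ _).prodMap (prec Δ.mor₁ _) x = 0 →
          ∃ y, x = (prec Δ.mor₂ _).prodMap (prec Δ.mor₂ _) y := fun h x hx => by
    obtain ⟨y₁, h1⟩ := Triangle.yoneda_exact₂ _ h x.1 (congrArg Prod.fst hx)
    obtain ⟨y₂, h2⟩ := Triangle.yoneda_exact₂ _ h x.2 (congrArg Prod.snd hx)
    exact ⟨(y₁, y₂), Prod.ext h1 h2⟩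
  have hr := rot_of_distTriang _ hΔ
  have hi := inv_rot_of_distTriang _ hΔ
  refine ⟨finKer_four (frac_prec Δ.mor₃ Z) (frac_prec Δ.mor₂ Z) (frac_prec Δ.mor₁ Z) (fun x => ?_)
    (ex hΔ) (fun y hy => Triangle.yoneda_exact₂ _ hr y hy) h₄.2 h₃.1 h₁.1,
    finCoker_four (frac_prec Δ.mor₂ Z) (frac_prec Δ.mor₁ Z) (frac_prec Δ.invRotate.mor₁ Z)
      (fun y => ?_) (ex hi) (fun y hy => Triangle.yoneda_exact₂ _ hΔ y hy) h₃.2 h₁.2 h₀.1⟩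
  · have := comp_distTriang_mor_zero₂₃ _ hΔ
    ext <;> simp [prec_apply, reassoc_of% this]
  · have : Δ.invRotate.mor₁ ≫ Δ.mor₁ = 0 := comp_distTriang_mor_zero₁₂ _ hi
    exact (Category.assoc _ _ _).symm.trans ((congrArg (· ≫ y) this).trans zero_comp)

/-- precomposition with an isomorphism -/
def precIso {N N' : T} (e : N' ≅ N) (Q : T) : (N ⟶ Q) ≃+ (N' ⟶ Q) :=
  AddEquiv.ofBijective (prec e.hom Q)
    ⟨fun _ _ h => (cancel_epi e.hom).1 h, fun x => ⟨e.inv ≫ x, e.hom_inv_id_assoc x⟩⟩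

theorem Lat.iso {N N' Z : T} (h : Lat Lh Le N Z) (e : N' ≅ N) : Lat Lh Le N' Z :=
  ⟨finKer_congr ((precIso e _).prodCongr (precIso e _)) (precIso e _) (frac_prec e.hom Z) h.1,
    finCoker_congr ((precIso e _).prodCongr (precIso e _)) (precIso e _) (frac_prec e.hom Z) h.2⟩

theorem Lat.shift {N Z : T} (h : Lat Lh Le N Z) (s : ℤ) : Lat Lh Le (N⟦s⟧) (Z⟦s⟧) := by
  let c : (N⟦s⟧ ⟶ Le.L.obj ((Lh.L.obj Z)⟦s⟧)) ≃+ (N⟦s⟧ ⟶ Le.L.obj (Lh.L.obj (Z⟦s⟧))) :=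
    AddEquiv.ofBijective (post _ (Le.L.map ((Lh.L.commShiftIso s).inv.app Z)))
      ⟨fun _ _ h => (cancel_mono _).1 h, fun y =>
        ⟨y ≫ inv (Le.L.map ((Lh.L.commShiftIso s).inv.app Z)), by simp⟩⟩
  have key : ∀ x, frac Lh.unit Le.unit (N⟦s⟧) (Z⟦s⟧) ((sh Le s).prodCongr (sh Lh s) x) =
      (sh Le s).trans c (frac Lh.unit Le.unit N Z x) := fun x => by
    change sh Le s x.1 ≫ Le.L.map (Lh.u _) + sh Lh s x.2 ≫ Le.u _ =
      sh Le s (x.1 ≫ Le.L.map (Lh.u Z) + x.2 ≫ Le.u _) ≫ Le.L.map ((Lh.L.commShiftIso s).inv.app Z)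
    have h1 : (Lh.u Z)⟦s⟧' ≫ (Lh.L.commShiftIso s).inv.app Z = Lh.u (Z⟦s⟧) := by
      rw [Lh.u_shift, Category.assoc, Iso.hom_inv_id_app]
      exact Category.comp_id _
    rw [map_add, sh_map, sh_u, Preadditive.add_comp, Category.assoc, ← Functor.map_comp, h1,
      Category.assoc, Le.u_naturality, sh_apply Lh, Category.assoc]
    rfl
  exact ⟨finKer_congr _ _ key h.1, finCoker_congr _ _ key h.2⟩

/-- from spheres to the shifts of a two cell complex -/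
theorem lat_of_sph {M Z : T} {f : 𝟙_ T ⟶ 𝟙_ T} {i : 𝟙_ T ⟶ M} {δ : M ⟶ (𝟙_ T)⟦(1 : ℤ)⟧}
    (hM : Triangle.mk f i δ ∈ distTriang T) (h : ∀ n, Lat Lh Le (Sph T n) Z) (n k : ℤ) :
    Lat Lh Le (M⟦n⟧) (Z⟦k⟧) := by
  have h' : ∀ m, Lat Lh Le (Sph T m) (Z⟦k⟧) := fun m =>
    ((h (m - k)).shift k).iso (shAdd _ _ _ _ (sub_add_cancel m k)).symm
  have e : (𝟙_ T)⟦(1 : ℤ)⟧⟦n⟧ ≅ Sph T (1 + n) := shAdd _ _ _ _ rfl
  exact Lat.ext (Triangle.shift_distinguished _ (rot_of_distTriang _ hM) n)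
    ((h' (1 + n + -1)).iso ((shiftFunctor T (-1 : ℤ)).mapIso e ≪≫ shAdd _ _ _ _ rfl)) (h' n)
    ((h' (1 + n)).iso e) ((h' (n + 1)).iso (shAdd _ _ _ _ rfl))

variable {F : Type} [Field F]

theorem ge_fin [Finite F] (a : ℤ) : ∃ s : Set (KK F), s.Finite ∧
    ∀ z ∈ (KK.ge 0 : Submodule F (KK F)), ∃ f ∈ s, z - f ∈ KK.ge a := by
  refine ⟨Set.range fun c : Fin a.toNat → F => ∑ j, c j • KK.uz (j : ℕ), Set.finite_range _,
    fun z hz => ⟨_, ⟨fun j => KK.cf (j : ℕ) z, rfl⟩, fun m hm => ?_⟩⟩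
  simp only [map_sub, map_sum, map_smul, KK.cf_uz, smul_eq_mul, mul_ite, mul_one, mul_zero]
  by_cases h0 : m < 0
  · rw [hz m h0, Finset.sum_eq_zero fun j _ => if_neg (by omega), sub_zero]
  · rw [Finset.sum_eq_single (⟨m.toNat, by omega⟩ : Fin a.toNat), if_pos (by simp; omega),
      sub_eq_zero]
    · congr 2
      simp; omega
    · exact fun j _ hj => if_neg fun h => hj (Fin.ext (by simp; omega))
    · simp

/-- The lattice property in one degree, from coordinates on an object `E` which has `L_h Z` as a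
retract. -/
theorem lat_of_coord [Finite F] {N Z E : T} (iE : Lh.L.obj Z ⟶ E) (rE : E ⟶ Lh.L.obj Z)
    (hE : iE ≫ rE = 𝟙 _) (κ : (N ⟶ Le.L.obj E) ≃+ KK F) (a : ℤ)
    (inj : ∀ x : N ⟶ E, x ≫ Le.u E = 0 → x = 0)
    (range : ∀ z, z ∈ KK.ge (-a) ↔ ∃ x : N ⟶ E, κ (x ≫ Le.u E) = z)
    (h1 : {x : N ⟶ Le.L.obj Z | κ (x ≫ Le.L.map (Lh.u Z ≫ iE)) ∈ KK.ge (-a)}.Finite)
    (h2 : ∀ w : N ⟶ Le.L.obj (Lh.L.obj Z), ∃ x : N ⟶ Le.L.obj Z,
      κ (w ≫ Le.L.map iE) - κ (x ≫ Le.L.map (Lh.u Z ≫ iE)) ∈ KK.ge 0) : Lat Lh Le N Z := by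
  have hfr : ∀ x : (N ⟶ Le.L.obj Z) × (N ⟶ Lh.L.obj Z), frac Lh.unit Le.unit N Z x =
      x.1 ≫ Le.L.map (Lh.u Z) + x.2 ≫ Le.u _ := fun _ => rfl
  have hr : Le.L.map iE ≫ Le.L.map rE = 𝟙 _ := by
    rw [← Functor.map_comp, hE, CategoryTheory.Functor.map_id]
  constructor
  · refine Set.Finite.of_finite_image (f := Prod.fst) (h1.subset ?_) fun x hx y hy hxy => ?_
    · rintro _ ⟨x, hx, rfl⟩
      refine (range _).2 ⟨-(x.2 ≫ iE), congrArg κ ?_⟩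
      have : x.1 ≫ Le.L.map (Lh.u Z) + x.2 ≫ Le.u _ = 0 := hx
      rw [Functor.map_comp, ← Category.assoc x.1, eq_neg_of_add_eq_zero_left this]
      simp [Le.u_naturality]
    · have h3 : x.1 ≫ Le.L.map (Lh.u Z) + x.2 ≫ Le.u _ = 0 := hx
      have h4 : y.1 ≫ Le.L.map (Lh.u Z) + y.2 ≫ Le.u _ = 0 := hy
      have h5 : x.2 ≫ Le.u _ = y.2 ≫ Le.u _ := by
        rw [hxy] at h3
        exact add_left_cancel (h3.trans h4.symm)
      have h6 := inj ((x.2 - y.2) ≫ iE) (by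
        rw [Category.assoc, ← Le.u_naturality, ← Category.assoc, Preadditive.sub_comp, h5, sub_self,
          zero_comp])
      have h7 := congrArg (· ≫ rE) h6
      simp only [Category.assoc, hE, Category.comp_id, zero_comp] at h7
      exact Prod.ext hxy (sub_eq_zero.1 h7)
  · obtain ⟨s, hs, h3⟩ := ge_fin (F := F) (-a)
    refine ⟨(fun f => κ.symm f ≫ Le.L.map rE) '' s, hs.image _, fun w => ?_⟩
    obtain ⟨x, hx⟩ := h2 w
    obtain ⟨f, hf, h4⟩ := h3 _ hx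
    obtain ⟨y, hy⟩ := (range _).1 h4
    refine ⟨(x, y ≫ rE), _, ⟨f, hf, rfl⟩, ?_⟩
    have h5 : w ≫ Le.L.map iE = x ≫ Le.L.map (Lh.u Z ≫ iE) + y ≫ Le.u E + κ.symm f :=
      κ.injective (by rw [map_add, map_add, hy, AddEquiv.apply_symm_apply]; abel)
    have h6 := congrArg (· ≫ Le.L.map rE) h5
    simp only [Category.assoc, hr, Category.comp_id, Preadditive.add_comp, Functor.map_comp,
      Le.u_naturality] at h6
    rw [hfr, h6, Category.assoc]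

theorem lat_of_zero {N Z E : T} (iE : Lh.L.obj Z ⟶ E) (rE : E ⟶ Lh.L.obj Z) (hE : iE ≫ rE = 𝟙 _)
    (h0 : HZ N (Le.L.obj Z)) (h1 : HZ N E) (h2 : HZ N (Le.L.obj E)) : Lat Lh Le N Z := by
  refine ⟨(Set.finite_singleton 0).subset fun x _ => Prod.ext (h0 _) ?_,
    {0}, Set.finite_singleton 0, fun w => ⟨0, 0, rfl, ?_⟩⟩
  · rw [← Category.comp_id x.2, ← hE, ← Category.assoc, h1 (x.2 ≫ iE), zero_comp]
    rfl
  · rw [← Category.comp_id w, ← CategoryTheory.Functor.map_id, ← hE, Functor.map_comp,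
      ← Category.assoc, h2 (w ≫ _), zero_comp, map_zero, add_zero]

/-- The field `lat` of `ED`. -/
theorem lat_of [Finite F] {M Z E : T} {f : 𝟙_ T ⟶ 𝟙_ T} {i : 𝟙_ T ⟶ M}
    {δ : M ⟶ (𝟙_ T)⟦(1 : ℤ)⟧} (hM : Triangle.mk f i δ ∈ distTriang T) {q : ℤ}
    (iE : Lh.L.obj Z ⟶ E) (rE : E ⟶ Lh.L.obj Z) (hE : iE ≫ rE = 𝟙 _)
    (kV : ∀ a : ℤ, (Sph T (q * a) ⟶ Le.L.obj E) ≃+ KK F)
    (πE_van : ∀ n : ℤ, ¬ q ∣ n → ∀ x : Sph T n ⟶ E, x = 0)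
    (πV_van : ∀ n : ℤ, ¬ q ∣ n → ∀ x : Sph T n ⟶ Le.L.obj E, x = 0)
    (πE_inj : ∀ (a : ℤ) (x : Sph T (q * a) ⟶ E), x ≫ Le.unit.app E = 0 → x = 0)
    (πE_range : ∀ (a : ℤ) (z : KK F), z ∈ KK.ge (-a) ↔
      ∃ x : Sph T (q * a) ⟶ E, kV a (x ≫ Le.unit.app E) = z)
    (h0 : ∀ n : ℤ, ¬ q ∣ n → ∀ x : Sph T n ⟶ Le.L.obj Z, x = 0)
    (h1 : ∀ a : ℤ, {x : Sph T (q * a) ⟶ Le.L.obj Z |
      kV a (x ≫ Le.L.map (Lh.u Z ≫ iE)) ∈ KK.ge (-a)}.Finite)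
    (h2 : ∀ (a : ℤ) (w : Sph T (q * a) ⟶ Le.L.obj (Lh.L.obj Z)),
      ∃ x : Sph T (q * a) ⟶ Le.L.obj Z,
        kV a (w ≫ Le.L.map iE) - kV a (x ≫ Le.L.map (Lh.u Z ≫ iE)) ∈ KK.ge 0) (n k : ℤ) :
    FinKer (frac Lh.unit Le.unit (M⟦n⟧) (Z⟦k⟧)) ∧ FinCoker (frac Lh.unit Le.unit (M⟦n⟧) (Z⟦k⟧)) :=
  lat_of_sph hM (fun m => by
    by_cases h : q ∣ m
    · obtain ⟨a, rfl⟩ := h
      exact lat_of_coord iE rE hE (kV a) a (πE_inj a) (πE_range a) (h1 a) (h2 a)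
    · exact lat_of_zero iE rE hE (h0 m h) (πE_van m h) (πV_van m h)) n k

end Vale.Agent.P221X.TA
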