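import Vale.Agent.P221X.TA.Mid
import Vale.Agent.P251.S.Coprod

/-!
# P221X, block TOP-B: the cover of the glued object is not in `Thick b`
-/

noncomputable section

open CategoryTheory MonoidalCategory Limits Pretriangulated MulOpposite

set_option linter.unusedSectionVars false

namespace Vale.Agent.P221X.TA

open Vale.Agent.P251 Vale.Agent.P251.T Vale.Agent.P251.S NM

variable {p : ℕ} {F : Type} [Field F] {D : GD p F} {R : Type} [Ring R] [Algebra F R]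

universe u

variable {T : Type u} [Category.{0} T] [Preadditive T] [HasZeroObject T] [HasShift T ℤ]
  [∀ n : ℤ, (shiftFunctor T n).Additive] [Pretriangulated T] [IsTriangulated T]
  [MonoidalCategory T] [SymmetricCategory T] [TensorTriangulated T] [MonoidalClosed T]
  [HasCoproducts.{0} T] [HasProducts.{0} T] [StableCat T]

theorem acyclic_coprod {K : T} {I : Type} {X : I → T} (h : ∀ i, Acyclic K (X i)) :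
    Acyclic K (∐ X) :=
  StableCat.generator _ fun n f => by
    obtain ⟨s, g, rfl⟩ := compact_sumL K X (isSphere_one_shift n) f
    exact Finset.sum_eq_zero fun i _ => by rw [IsZero.eq_of_tgt (h i) (g i) 0, zero_comp]

theorem acyclic_biproduct {K : T} {I : Type} [Fintype I] {X : I → T} (h : ∀ i, Acyclic K (X i)) :
    Acyclic K (⨁ X) :=
  (acyclic_coprod h).of_iso (biproduct.isoCoproduct X).symm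

theorem isLocal_biproduct {K : T} {I : Type} [Fintype I] {X : I → T} (h : ∀ i, IsLocal K (X i)) :
    IsLocal K (⨁ X) := fun _ hW f =>
  biproduct.hom_ext _ _ fun i => by rw [h i hW (f ≫ _), zero_comp]

theorem keq_fst {K A B : T} (h : Acyclic K B) : KEq K (biprod.fst : A ⊞ B ⟶ A) :=
  KEq.of_comp_left (f := biprod.inl)
    ((keq_iff_acyclic (binaryBiproductTriangle_distinguished A B)).2 h)
    (by rw [biprod.inl_fst]; exact KEq.of_isIso _)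

theorem map_u {K : T} (Λ : LocFunctor K) (X : T) : Λ.L.map (Λ.u X) = Λ.u (Λ.L.obj X) :=
  Λ.hom_ext (Λ.isLocal _) (Λ.u_naturality _)

theorem zx_fin [Finite F] :
    {v : KK F | v ∈ (Zx p).toAddSubgroup ∧
      v ∈ (KK.inv (p + 1) ⊓ KK.ge 0 : Submodule F (KK F)).toAddSubgroup}.Finite := by
  refine (Set.finite_range fun c : F => c • (KK.uz 0 : KK F)).subset fun v hv => ⟨KK.cf 0 v, ?_⟩
  refine KK.ext fun n => ?_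
  rw [map_smul, KK.cf_uz]
  rcases lt_trichotomy n 0 with h | rfl | h
  · rw [if_neg h.ne, smul_zero, hv.2.2 n h]
  · simp
  · rw [if_neg h.ne', smul_zero, hv.1.2 n h]

namespace MD

variable {S : RD D R} {𝒜 : AlgA S} {b V : T} (𝓜 : MD 𝒜 b V) (I : Idx 𝒜)

/-- the cofibres of `θ` on the full objects -/
def K (i : 𝓜.ι) : Cone (𝓜.TD i) 𝒜.θ := (exists_cone _ _).some

theorem exists_toK (i : 𝓜.ι) : ∃ c : 𝓜.Y i ⟶ (𝓜.K i).obj,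
    𝓜.inn i ≫ c = 𝓜.toP i ≫ (𝓜.K i).inn ∧
      𝓜.out i ≫ (𝓜.toP i)⟦(1 : ℤ)⟧' = c ≫ (𝓜.K i).out :=
  complete_distinguished_triangle_morphism _ _ (𝓜.dist i) (𝓜.K i).dist (𝓜.toP i) (𝓜.toP i)
    (𝓜.th_toP i)

/-- the maps of cofibres -/
def toK (i : 𝓜.ι) : 𝓜.Y i ⟶ (𝓜.K i).obj := (𝓜.exists_toK i).choose

theorem inn_toK (i : 𝓜.ι) : 𝓜.inn i ≫ 𝓜.toK i = 𝓜.toP i ≫ (𝓜.K i).inn :=
  (𝓜.exists_toK i).choose_spec.1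

theorem toK_out (i : 𝓜.ι) : 𝓜.toK i ≫ (𝓜.K i).out = 𝓜.out i ≫ (𝓜.toP i)⟦(1 : ℤ)⟧' :=
  (𝓜.exists_toK i).choose_spec.2.symm

theorem Y_loc (i : 𝓜.ι) : IsLocal 𝓜.Kh (𝓜.Y i) :=
  IsLocal.ext₃ (𝓜.dist i) (𝓜.P_loc i) (𝓜.P_loc i)

theorem LeY_acyc (i : 𝓜.ι) : Acyclic 𝓜.Kh (𝓜.Le.L.obj (𝓜.Y i)) :=
  Acyclic.ext₃ (𝓜.Le.map_dist (𝓜.dist i)) (𝓜.LeP_acyc i) (𝓜.LeP_acyc i)

theorem exists_pre (i : 𝓜.ι) (x : 𝓜.M i ⟶ 𝓜.Le.L.obj (𝓜.K i).obj) :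
    ∃ y : 𝓜.M i ⟶ 𝓜.Le.L.obj (𝓜.TD i).P, x = y ≫ 𝓜.Le.L.map (𝓜.K i).inn :=
  𝓜.exe.co _ (rot_of_distTriang _ (𝓜.K i).dist) _ x ((𝓜.M_van i).2 _)

theorem rho_aux (i : 𝓜.ι) {y y' : 𝓜.M i ⟶ 𝓜.Le.L.obj (𝓜.TD i).P}
    (h : y ≫ 𝓜.Le.L.map (𝓜.K i).inn = y' ≫ 𝓜.Le.L.map (𝓜.K i).inn) :
    𝒜.rho (𝓜.κ i y) = 𝒜.rho (𝓜.κ i y') := by
  obtain ⟨w, hw⟩ : ∃ w : 𝓜.M i ⟶ 𝓜.Le.L.obj (𝓜.TD i).P,
      y - y' = w ≫ 𝓜.Le.L.map ((𝓜.TD i).lam 𝒜.θ) :=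
    𝓜.exe.co _ (𝓜.K i).dist _ (y - y') (by
      change (y - y') ≫ 𝓜.Le.L.map (𝓜.K i).inn = 0
      rw [Preadditive.sub_comp, h, sub_self])
  rw [← sub_eq_zero, ← map_sub, ← map_sub, hw, 𝓜.κ_lam, 𝒜.rho_θ]

/-- the map `ρ` on the cokernel of `θ` -/
def rho (i : 𝓜.ι) : (𝓜.M i ⟶ 𝓜.Le.L.obj (𝓜.K i).obj) →+ KK F :=
  AddMonoidHom.mk' (fun x => 𝒜.rho (𝓜.κ i (𝓜.exists_pre i x).choose)) fun x y => by
    rw [← map_add, ← map_add]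
    refine 𝓜.rho_aux i ?_
    rw [Preadditive.add_comp, ← (𝓜.exists_pre i x).choose_spec, ← (𝓜.exists_pre i y).choose_spec,
      ← (𝓜.exists_pre i (x + y)).choose_spec]

theorem rho_inn (i : 𝓜.ι) (y : 𝓜.M i ⟶ 𝓜.Le.L.obj (𝓜.TD i).P) :
    𝓜.rho i (y ≫ 𝓜.Le.L.map (𝓜.K i).inn) = 𝒜.rho (𝓜.κ i y) :=
  𝓜.rho_aux i (𝓜.exists_pre i _).choose_spec.symm

variable {X : T} (C : Cov (𝓜.Yf I) X)

/-- the map `X ⟶ ⨁ Y` -/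
def xT : X ⟶ ⨁ 𝓜.Y := C.c ≫ 𝓜.fι I ≫ biprod.fst

theorem keq_xT : KEq 𝓜.Kh (𝓜.xT I C) :=
  ((keq_iff_acyclic C.dist).2 (𝓜.bdd _ 0 C.cocon).1).comp
    (((keq_iff_acyclic (𝓜.fdist I)).2 (acyclic_biproduct 𝓜.LeY_acyc)).comp
      (keq_fst (acyclic_biproduct fun i => acyclic_coprod fun _ => 𝓜.J_acyc i)))

/-- the extension to `L_h X` -/
def hT : 𝓜.Lh.L.obj X ⟶ ⨁ 𝓜.Y := 𝓜.Lh.desc (isLocal_biproduct 𝓜.Y_loc) (𝓜.xT I C)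

theorem u_hT : 𝓜.Lh.u X ≫ 𝓜.hT I C = 𝓜.xT I C := 𝓜.Lh.u_desc _ _

/-- the maps `L_h X ⟶ C_θ⟦s i⟧` -/
def xh (i : 𝓜.ι) : 𝓜.Lh.L.obj X ⟶ (𝓜.K i).obj := 𝓜.hT I C ≫ biproduct.π _ i ≫ 𝓜.toK i

theorem u_xh (i : 𝓜.ι) :
    𝓜.Lh.unit.app X ≫ 𝓜.xh I C i = (C.c ≫ 𝓜.fι I ≫ 𝓜.pY I i) ≫ 𝓜.toK i := by
  change 𝓜.Lh.u X ≫ _ = _
  rw [xh, ← Category.assoc, u_hT]
  simp [xT, pY]

theorem exists_w {N : T} (x : N ⟶ 𝓜.Le.L.obj X) : ∃ w : ∀ j, N ⟶ 𝓜.W I j, ∀ j,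
    x ≫ 𝓜.Le.L.map (C.c ≫ 𝓜.fι I ≫ 𝓜.pY I (𝓜.succ j)) =
      -(w (𝓜.succ j) ≫ 𝓜.φa I (𝓜.succ j) + w j ≫ 𝓜.φb I j) := by
  have hi : ∀ j, IsIso (𝓜.Le.u (𝓜.W I j)) := fun j => 𝓜.Le.isIso_u (𝓜.J_loc j _)
  refine ⟨fun j => x ≫ 𝓜.Le.L.map (C.c ≫ 𝓜.fι I ≫ 𝓜.pW I j) ≫ inv (𝓜.Le.u _), fun j => ?_⟩
  have h0 : 𝓜.fι I ≫ 𝓜.Φ I = 0 := comp_distTriang_mor_zero₁₂ _ (𝓜.fdist I)
  have h1 := congrArg (fun f => x ≫ 𝓜.Le.L.map (C.c ≫ 𝓜.fι I ≫ f)) (𝓜.Φ_π I j)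
  simp only [reassoc_of% h0, zero_comp, comp_zero, Functor.map_zero, Preadditive.comp_add,
    Functor.map_add] at h1
  have : IsIso (𝓜.Le.u (𝓜.Le.L.obj (𝓜.Y (𝓜.succ j)))) := 𝓜.Le.isIso_u (𝓜.Le.isLocal _)
  rw [eq_neg_iff_add_eq_zero, ← cancel_mono (𝓜.Le.u (𝓜.Le.L.obj (𝓜.Y (𝓜.succ j)))), zero_comp,
    h1]
  have ea := 𝓜.Le.u_naturality (𝓜.φa I (𝓜.succ j))
  have eb := 𝓜.Le.u_naturality (𝓜.φb I j)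
  simp only [Preadditive.add_comp, Category.assoc, ← ea, ← eb, IsIso.inv_hom_id_assoc,
    Functor.map_comp, add_assoc, map_u]

theorem glue (i : 𝓜.ι) (x : 𝓜.M i ⟶ 𝓜.Le.L.obj X) :
    𝓜.κ' i (x ≫ 𝓜.Le.L.map (𝓜.Lh.unit.app X ≫ 𝓜.xh I C (𝓜.succ i) ≫ (𝓜.K (𝓜.succ i)).out)) -
      𝓜.rho i (x ≫ 𝓜.Le.L.map (𝓜.Lh.unit.app X ≫ 𝓜.xh I C i)) ∈ Zx p := by
  obtain ⟨w, hw⟩ := 𝓜.exists_w I C x
  obtain ⟨n, hn⟩ := 𝓜.z_gen i _ (w i)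
  have hc : lc I.fc n ∈ KK.inv (p + 1) :=
    Submodule.sum_mem _ fun l _ => zsmul_mem (I.fc_inv l) _
  have hq : lc I.fq n ∈ KK.inv (p + 1) :=
    Submodule.sum_mem _ fun l _ => zsmul_mem (I.fq_inv l) _
  have h1 : x ≫ 𝓜.Le.L.map (𝓜.Lh.unit.app X ≫ 𝓜.xh I C (𝓜.succ i) ≫ (𝓜.K (𝓜.succ i)).out) =
      -(𝓜.z i ≫ 𝓜.g' i (lc I.fq n) ≫ 𝓜.Le.L.map ((𝓜.toP (𝓜.succ i))⟦(1 : ℤ)⟧')) := by
    rw [← Category.assoc (𝓜.Lh.unit.app X), u_xh, Category.assoc, toK_out, Functor.map_comp,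
      ← Category.assoc x, hw, Functor.map_comp]
    simp only [Preadditive.neg_comp, Preadditive.add_comp, Category.assoc,
      reassoc_of% 𝓜.φa_out I, reassoc_of% 𝓜.φb_out I, zero_comp, comp_zero, zero_add, hn,
      reassoc_of% cmb_desc]
  have h2 : x ≫ 𝓜.Le.L.map (𝓜.Lh.unit.app X ≫ 𝓜.xh I C i) =
      (-(𝓜.z i ≫ 𝓜.g i (lc I.fc n) ≫ 𝓜.Le.L.map (𝓜.toP i))) ≫ 𝓜.Le.L.map (𝓜.K i).inn := by
    obtain ⟨j, rfl⟩ := 𝓜.succ.surjective i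
    rw [u_xh, Functor.map_comp, ← Category.assoc x, hw, 𝓜.M_J j _ (w j), zero_comp, add_zero, hn,
      φa]
    simp only [Preadditive.neg_comp, Category.assoc, reassoc_of% cmb_desc, ← Functor.map_comp,
      inn_toK]
  rw [h1, h2, rho_inn, map_neg, map_neg, 𝓜.κ'_g i _ hq, 𝓜.κ_g i _ hc, map_neg, neg_sub_neg,
    ← neg_sub]
  refine neg_mem ?_
  simp only [lc, Finsupp.linearCombination_apply, Finsupp.sum, map_sum, map_zsmul,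
    ← Finset.sum_sub_distrib, ← smul_sub]
  exact Submodule.sum_mem _ fun l _ => zsmul_mem (I.glue l) _

theorem rigA (i : 𝓜.ι) (h : (𝓜.TD i).P' ⟶ 𝓜.Lh.L.obj X) (y : (𝓜.TD i).P' ⟶ (𝓜.TD i).P)
    (hy : h ≫ 𝓜.xh I C i = y ≫ (𝓜.K i).inn) (hne : op ((𝓜.TD i).eps y) • 𝒜.O.inv 𝒜.θ ≠ 0) :
    (Set.range fun x : 𝓜.M i ⟶ 𝓜.Le.L.obj (𝓜.TD i).P' =>
      𝓜.rho i (x ≫ 𝓜.Le.L.map (y ≫ (𝓜.K i).inn))).Infinite := by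
  obtain ⟨y', hy'⟩ : ∃ y' : (𝓜.TD i).P' ⟶ 𝓜.P i,
      h ≫ 𝓜.hT I C ≫ biproduct.π _ i = y' ≫ 𝓜.inn i :=
    Triangle.coyoneda_exact₃ _ (𝓜.dist i) _ (𝓜.P'_van i _)
  have h1 : y ≫ (𝓜.K i).inn = (y' ≫ 𝓜.toP i) ≫ (𝓜.K i).inn := by
    rw [← hy, xh, Category.assoc, ← inn_toK, ← reassoc_of% hy']
  rw [← kap_inn 𝒜.O 𝒜.θ_ne (𝓜.K i), h1, kap_inn 𝒜.O 𝒜.θ_ne] at hne
  have := 𝓜.rig i y' hne
  simp only [h1, 𝓜.Le.L.map_comp (y' ≫ 𝓜.toP i), ← Category.assoc _ _ (𝓜.Le.L.map (𝓜.K i).inn),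
    rho_inn]
  exact this

theorem nonzero' : ∃ (i : 𝓜.ι) (h : (𝓜.TD i).P' ⟶ 𝓜.Lh.L.obj X) (y : (𝓜.TD i).P' ⟶ (𝓜.TD i).P),
    h ≫ 𝓜.xh I C i = y ≫ (𝓜.K i).inn ∧ op ((𝓜.TD i).eps y) • 𝒜.O.inv 𝒜.θ ≠ 0 := by
  obtain ⟨i, y, hy⟩ := 𝓜.nonzero
  have : IsIso (𝓜.hT I C) := 𝓜.Lh.keq_desc _ (𝓜.keq_xT I C)
  refine ⟨i, y ≫ 𝓜.inn i ≫ biproduct.ι _ i ≫ inv (𝓜.hT I C), y ≫ 𝓜.toP i, ?_, hy⟩
  simp [xh, inn_toK]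

theorem rho_compact (i : 𝓜.ι) :
    (Set.range fun x : 𝓜.M i ⟶ (𝓜.K i).obj => 𝓜.rho i (x ≫ 𝓜.Le.unit.app _)).Finite := by
  obtain ⟨N, hN⟩ := 𝓜.κ_lat i
  refine (𝒜.rho_fin N).subset ?_
  rintro _ ⟨x, rfl⟩
  obtain ⟨y, rfl⟩ : ∃ y : 𝓜.M i ⟶ (𝓜.TD i).P, x = y ≫ (𝓜.K i).inn :=
    Triangle.coyoneda_exact₃ _ (𝓜.K i).dist _ ((𝓜.M_van i).1 _)
  refine ⟨_, hN y, ?_⟩
  rw [← rho_inn, Category.assoc, LocFunctor.u_naturality, ← Category.assoc]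
  rfl

include C in
/-- The cover of the glued object is not in the thick subcategory generated by `b`. -/
theorem not_thick [Finite F] : ¬ Thick b X := by
  let _ : Module R (KK F) := Module.compHom (KK F) S.op.toRingHom
  have := 𝒜.dom
  exact Data.not_thick (V := KK F) (Lh := 𝓜.Lh.L) (Le := 𝓜.Le.L) (ηh := 𝓜.Lh.unit)
    (ηe := 𝓜.Le.unit) (O := 𝒜.O)
    { exh := Ex.of_isTriangulated _
      exe := Ex.of_isTriangulated _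
      exhe := Ex.of_isTriangulated _
      succ := 𝓜.succ
      D := 𝓜.TD
      K := 𝓜.K
      M := 𝓜.M
      cell := 𝓜.cell
      lat := 𝓜.lat
      xh := 𝓜.xh I C
      W := (Zx p).toAddSubgroup
      Q := (KK.inv (p + 1) ⊓ KK.ge 0 : Submodule F (KK F)).toAddSubgroup
      WQ := zx_fin
      rho := 𝓜.rho
      rho_mem := fun _ _ => 𝒜.rho_mem _
      rho_compact := 𝓜.rho_compact
      nu := 𝓜.κ'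
      nu_lam := 𝓜.κ'_lam
      glue := 𝓜.glue I C
      rigA := 𝓜.rigA I C
      rigB := 𝒜.rigB
      nonzero := 𝓜.nonzero' I C } 𝒜.θ_ne

end MD

end Vale.Agent.P221X.TA
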