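import Vale.Agent.P221X.TA.Cd
import Vale.Agent.P221X.TB.Defs

/-!
# P221X, block TOP-A: `rowTA : RowTA T`
-/

noncomputable section

open CategoryTheory MonoidalCategory Limits Pretriangulated MulOpposite

set_option linter.unusedSectionVars false

namespace Vale.Agent.P221X

open Vale.Agent.P251 Vale.Agent.P251.T Vale.Agent.P251.S NM TA

variable {p : ℕ} {F : Type} [Field F] {D : GD p F} {R : Type} [Ring R] [Algebra F R]

universe u

variable {T : Type u} [Category.{0} T] [Preadditive T] [HasZeroObject T] [HasShift T ℤ]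
  [∀ n : ℤ, (shiftFunctor T n).Additive] [Pretriangulated T] [IsTriangulated T]
  [MonoidalCategory T] [SymmetricCategory T] [TensorTriangulated T] [MonoidalClosed T]
  [HasCoproducts.{0} T] [HasProducts.{0} T] [StableCat T]
  {S : RD D R} {Rf AA : Type} [Ring Rf] [Ring AA] {A₀ : RA S Rf AA} {q : ℤ} {b V : T}

theorem RA.tt_reg' (A₀ : RA S Rf AA) (x : AA) (h : A₀.inc A₀.tt * x = 0) : x = 0 := by
  refine (A₀.basis_left x).trans (Finset.sum_eq_zero fun j _ => ?_)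
  rw [A₀.tt_reg (A₀.tr (x * A₀.σ j)) (by rw [← A₀.tr_left, ← mul_assoc, h, zero_mul, map_zero]),
    map_zero, zero_mul]

theorem RA.act_tt (A₀ : RA S Rf AA) (z : KK F) : A₀.act (A₀.inc A₀.tt) z = 0 := by
  rw [A₀.act_inc, (A₀.pr_eq_zero _).2 ⟨1, (mul_one _).symm⟩, map_zero, LinearMap.zero_apply]

/-- the trace data -/
def RA.trD (A₀ : RA S Rf AA) : TrD R Rf AA (A₀.inc A₀.tt) where
  j := A₀.inc
  pi := A₀.pr
  pi_surj := A₀.pr_surj
  T₀ := A₀.tt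
  j_T₀ := rfl
  pi_ker := A₀.pr_eq_zero
  tr := A₀.tr
  tr_left := A₀.tr_left
  tr_right := A₀.tr_right
  κ := Fin A₀.n
  b := A₀.σ
  b' := A₀.σ'
  dual := A₀.dual
  exp_left := A₀.basis_left
  exp_right := A₀.basis_right

namespace ED

variable (X : ED A₀ q b V)

/-- the endomorphism data -/
@[reducible] def enD (hq : 5 ≤ q) : EnD T AA where
  E := X.E
  lam a := X.lam a
  lam_one := map_one X.lam
  lam_mul := map_mul X.lam
  lam_add := map_add X.lam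
  lam_bij := X.lam_bij
  T := A₀.inc A₀.tt
  T_comm := A₀.tt_comm
  T_reg := A₀.tt_reg'
  beta := X.β
  beta_comm := X.β_comm
  beta_bij := X.β_bij
  q := q
  q_ge := hq
  per := X.per
  van j h h' := (HZ.shift (X.van (-j) (by rwa [dvd_neg]) (by rwa [← dvd_neg, neg_add, neg_neg])) j).iso
    (shAdd _ _ _ _ (neg_add_cancel j) ≪≫ shZero _) (Iso.refl _)
  A := X.A
  inn := X.iA
  out := X.dA
  dist := X.distA

/-- the coordinates on `π_* L_e E` -/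
def cdE (a : ℤ) : Cd X.Le (fun m z => A₀.act m z) (Sph T (q * a)) X.E (fun m => X.lam m) a where
  κ := X.kV a
  eqv := X.kV_lam a
  inj := X.πE_inj a
  range := X.πE_range a

theorem tt_zero {N Q : T} {l : AA → (Q ⟶ Q)} {a : ℤ}
    (c : Cd X.Le (fun m z => A₀.act m z) N Q l a) :
    (∀ x : N ⟶ X.Le.L.obj Q, x ≫ X.Le.L.map (l (A₀.inc A₀.tt)) = 0) ∧
      ∀ x : N ⟶ Q, x ≫ l (A₀.inc A₀.tt) = 0 := by
  have h : ∀ x : N ⟶ X.Le.L.obj Q, x ≫ X.Le.L.map (l (A₀.inc A₀.tt)) = 0 := fun x =>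
    c.κ.injective (by rw [c.eqv, A₀.act_tt, map_zero])
  exact ⟨h, fun x => c.inj _ (by rw [Category.assoc, ← X.Le.u_naturality, ← Category.assoc, h])⟩

theorem hzE {n : ℤ} (h : ¬ q ∣ n) : HZ (Sph T n) X.E ∧ HZ (Sph T n) (X.Le.L.obj X.E) :=
  ⟨X.πE_van n h, X.πV_van n h⟩

theorem hzE₁ {n : ℤ} (h : ¬ q ∣ n - 1) :
    HZ (Sph T n) (X.E⟦(1 : ℤ)⟧) ∧ HZ (Sph T n) (X.Le.L.obj (X.E⟦(1 : ℤ)⟧)) :=
  ⟨((X.hzE h).1.shift 1).iso (shAdd _ _ _ _ (sub_add_cancel n 1)) (Iso.refl _),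
    (hz_sh X.Le (X.hzE h).2 1).iso (shAdd _ _ _ _ (sub_add_cancel n 1)) (Iso.refl _)⟩

variable (hq : 5 ≤ q)

include hq in
theorem not_dvd_one {n : ℤ} (h : q ∣ n) : ¬ q ∣ n - 1 ∧ ¬ q ∣ n + 1 :=
  ⟨fun h' => by
    have := Int.le_of_dvd one_pos (by simpa using dvd_sub h h')
    omega, fun h' => by
    have := Int.le_of_dvd one_pos (by simpa using dvd_sub h' h)
    omega⟩

/-- the bottom classes -/
def cdBot (a : ℤ) : Cd X.Le (fun m z => A₀.act m z) (Sph T (q * a)) X.A (X.enD hq).act a :=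
  (X.cdE a).fwd X.iA (fun m => ((X.enD hq).inn_act m).symm)
    (bij_inn Ex.id X.distA (X.tt_zero (X.cdE a)).2
      (X.hzE₁ (not_dvd_one hq (dvd_mul_right q a)).1).1).2
    (bij_inn (Ex.of_isTriangulated _) X.distA (X.tt_zero (X.cdE a)).1
      (X.hzE₁ (not_dvd_one hq (dvd_mul_right q a)).1).2)

/-- the top classes -/
def cdTop (a : ℤ) : Cd X.Le (fun m z => A₀.act m z) (Sph T (q * a + 1)) X.A (X.enD hq).act a :=
  let c := ((X.cdE a).shift 1).iso (shAdd (𝟙_ T) (q * a) 1 _ rfl).symm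
  c.bwd X.dA (fun m => (X.enD hq).act_out m)
    (bij_out Ex.id X.distA (X.tt_zero c).2 (X.hzE (not_dvd_one hq (dvd_mul_right q a)).2).1)
    (bij_out (Ex.of_isTriangulated _) X.distA (X.tt_zero c).1
      (X.hzE (not_dvd_one hq (dvd_mul_right q a)).2).2)

theorem exists_cd (n : ℤ) (h : q ∣ n ∨ q ∣ n - 1) : ∃ a : ℤ, (0 ≤ n → 0 ≤ a) ∧
    Nonempty (Cd X.Le (fun m z => A₀.act m z) (Sph T n) X.A (X.enD hq).act a) := by
  rcases h with ⟨a, rfl⟩ | ⟨a, h⟩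
  · exact ⟨a, fun h => by by_contra h'; nlinarith, ⟨X.cdBot hq a⟩⟩
  · obtain rfl : n = q * a + 1 := by omega
    exact ⟨a, fun h => by by_contra h'; nlinarith, ⟨X.cdTop hq a⟩⟩

/-- the chosen coordinates -/
def cd (n : ℤ) (h : q ∣ n ∨ q ∣ n - 1) :
    Cd X.Le (fun m z => A₀.act m z) (Sph T n) X.A (X.enD hq).act (X.exists_cd hq n h).choose :=
  (X.exists_cd hq n h).choose_spec.2.some

theorem hzA {n : ℤ} (h : ¬ q ∣ n) (h' : ¬ q ∣ n - 1) :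
    HZ (Sph T n) X.A ∧ HZ (Sph T n) (X.Le.L.obj X.A) :=
  ⟨hz_cof Ex.id X.distA (X.hzE h).1 (X.hzE₁ h').1,
    hz_cof (Ex.of_isTriangulated _) X.distA (X.hzE h).2 (X.hzE₁ h').2⟩

set_option backward.defeqAttrib.useBackward true in
set_option backward.isDefEq.respectTransparency false in
/-- the periodicity of `A` -/
def perA : X.A⟦q⟧ ≅ X.A :=
  Triangle.π₃.mapIso (isoTriangleOfIso₁₂ _ _ (Triangle.shift_distinguished _ X.distA q) X.distA
    X.per (q.negOnePow • X.per) (by simp [smul_smul, X.per_tt]))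

theorem gen_surj : Function.Surjective
    fun x : X.M⟦(-1 : ℤ)⟧ ⟶ X.Le.L.obj (X.enD hq).P' => x ≫ X.Le.L.map (X.enD hq).gen := by
  have ex := Ex.of_isTriangulated X.Le.L
  have nd : ∀ {j : ℤ}, j ≠ 0 → -5 < j → j < 5 → ¬ q ∣ j := (X.enD hq).not_dvd
  have e0 : X.M⟦q * 0⟧ ≅ X.M := eqToIso (by rw [mul_zero]) ≪≫ shZero _
  have e1 : Sph T (q * 0) ≅ 𝟙_ T := eqToIso (by rw [mul_zero]) ≪≫ shZero _
  have hβ : Function.Surjective fun x : X.M ⟶ X.Le.L.obj X.E => x ≫ X.Le.L.map X.β := fun y => by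
    obtain ⟨x, hx⟩ := X.β_M 0 (e0.hom ≫ y)
    exact ⟨e0.inv ≫ x, by simp only at hx ⊢; rw [Category.assoc, hx, Iso.inv_hom_id_assoc]⟩
  have hT : ∀ x : X.M ⟶ X.Le.L.obj X.E, x ≫ X.Le.L.map (X.lam (A₀.inc A₀.tt)) = 0 := fun x => by
    obtain ⟨w, hw⟩ : ∃ w : Sph T 1 ⟶ X.Le.L.obj X.E,
        x ≫ X.Le.L.map (X.lam (A₀.inc A₀.tt)) = X.δM ≫ w :=
      Triangle.yoneda_exact₃ _ X.distM _ (by
        change X.iM ≫ _ = 0
        rw [← Category.assoc]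
        exact (X.tt_zero ((X.cdE 0).iso e1.symm)).1 _)
    rw [hw, X.πV_van 1 (nd (by omega) (by omega) (by omega)) w, comp_zero]
  intro y
  obtain ⟨y₁, rfl⟩ : ∃ y₁ : X.M⟦(-1 : ℤ)⟧ ⟶ X.Le.L.obj X.E, y = y₁ ≫ X.Le.L.map X.iA :=
    ex.co _ (rot_of_distTriang _ X.distA) _ y (hz_moore X.distM (-1)
      (X.hzE₁ (nd (by omega) (by omega) (by omega))).2
      (X.hzE₁ (nd (by omega) (by omega) (by omega))).2 _)
  obtain ⟨y₂, hy₂⟩ := surj_sh X.Le hβ (-1) (y₁ ≫ X.Le.L.map (upDn.inv.app X.E))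
  obtain ⟨y₃, rfl⟩ := (sh X.Le (-1)).surjective y₂
  obtain ⟨y₄, hy₄⟩ : ∃ y₄ : X.M⟦(-1 : ℤ)⟧ ⟶ X.Le.L.obj (X.enD hq).P',
      sh X.Le (-1) y₃ = y₄ ≫ X.Le.L.map (X.enD hq).pr :=
    ex.co _ (X.enD hq).dist' _ _ (by
      change sh X.Le (-1) y₃ ≫ X.Le.L.map ((X.lam (A₀.inc A₀.tt))⟦(-1 : ℤ)⟧') = 0
      rw [← sh_map, hT, map_zero])
  refine ⟨y₄, ?_⟩
  have h5 : X.Le.L.map (upDn.inv.app X.E) ≫ X.Le.L.map (upDn.hom.app X.E) = 𝟙 _ := by
    rw [← Functor.map_comp, Iso.inv_hom_id_app, CategoryTheory.Functor.map_id]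
  simp only [EnD.gen, EnD.bd, dn, Functor.map_comp, ← reassoc_of% hy₄, Category.assoc] at hy₂ ⊢
  rw [reassoc_of% hy₂, reassoc_of% h5]

theorem isZero_cof {G : T ⥤ T} [G.CommShift ℤ] [G.IsTriangulated] (h : IsZero (G.obj X.E ⊗ V)) :
    IsZero (G.obj X.A ⊗ V) :=
  IsZero.of_iso (Acyclic.ext₃ (K := V) (G.map_distinguished _ X.distA) (h.of_iso (β_ _ _))
    (h.of_iso (β_ _ _))) (β_ _ _)

/-- The output of TOP-A. -/
def toTA (Al : AlgA S) : TA Al q b V where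
  M := X.M
  iM := X.iM
  δM := X.δM
  distM := X.distM
  Kh := X.Kh
  Ke := X.Ke
  Lh := X.Lh
  Le := X.Le
  bdd := X.bdd
  lat := X.lat
  D := TrD.tri (D := X.enD hq) A₀.trD
  cell i k :=
    haveI := Al.dom
    (TrD.good (D := X.enD hq) A₀.trD Al.O i k).retract
      ((X.Lh.L.commShiftIso k).hom.app b ≫ X.iE⟦k⟧') (X.rE⟦k⟧' ≫ (X.Lh.L.commShiftIso k).inv.app b)
      (by
        rw [Category.assoc, ← Functor.map_comp_assoc, X.iE_rE, CategoryTheory.Functor.map_id]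
        simp)
  pA := (X.enD hq).ext_inn (by
    change X.iA ≫ _ = X.iA ≫ _
    rw [Preadditive.comp_zsmul, Category.comp_id, ← Category.id_comp X.iA, ← Preadditive.zsmul_comp,
      sq, mul_smul, X.pE, smul_zero, zero_comp, comp_zero])
  A_loc := IsLocal.ext₃ X.distA X.E_loc X.E_loc
  LA_acyc := Acyclic.ext₃ (X.Le.map_dist X.distA) X.LeE_acyc X.LeE_acyc
  A_V := X.isZero_cof (G := 𝟭 T) X.E_V
  LA_V := X.isZero_cof X.LeE_V
  per := X.perA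
  e := (X.enD hq).act A₀.e
  e_idem := by rw [← EnD.act_mul, A₀.e_idem]
  e_θ := by
    obtain ⟨r, hr⟩ := A₀.pr_surj Al.θ
    obtain ⟨y, hy⟩ := A₀.e_comm r (by rw [hr, Al.θ_mu])
    have h1 : TrD.lamR (D := X.enD hq) A₀.trD Al.θ = (X.enD hq).act (A₀.inc r) := by
      rw [← hr]; exact TrD.lamR_pi (D := X.enD hq) A₀.trD r
    change _ ≫ TrD.lamR (D := X.enD hq) A₀.trD Al.θ = TrD.lamR (D := X.enD hq) A₀.trD Al.θ ≫ _
    rw [h1, ← EnD.act_mul, ← EnD.act_mul, eq_comm, ← sub_eq_zero, ← EnD.act_sub, hy]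
    exact (X.enD hq).act_T_mul y
  πA_van n h h' := (X.hzA h h').1
  πV_van n h h' := (X.hzA h h').2
  k n h := (X.cd hq n h).κ
  k_lam n h x r := ((X.cd hq n h).eqv x _).trans ((A₀.act_inc _ _).trans
    (congrArg (fun r => S.op r _) (A₀.trD.pi_sec r)))
  k_e n h x := ((X.cd hq n h).eqv x _).trans (A₀.act_e _)
  πA_inj n x hx := by
    by_cases h : q ∣ n ∨ q ∣ n - 1
    · exact (X.cd hq n h).inj x hx
    · exact (X.hzA (fun h' => h (.inl h')) fun h' => h (.inr h')).1 x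
  πA_range n h hn := by
    obtain ⟨N, hN⟩ := Int.eq_ofNat_of_zero_le ((X.exists_cd hq n h).choose_spec.1 hn)
    exact ⟨N, fun z => hN ▸ (X.cd hq n h).range z⟩
  y₀ := (X.enD hq).gen
  y₀_surj := X.gen_surj hq
  eps_e := (TrD.epsR_gen (D := X.enD hq) A₀.trD A₀.e).trans (by
    change A₀.pr (A₀.tr A₀.e) = 1
    rw [A₀.tr_e, map_one])
  τ := A₀.τ
  τ_smul := A₀.τ_smul
  sem y := by
    obtain ⟨m, rfl⟩ := (X.enD hq).hom_gen y
    obtain ⟨r', hr⟩ := A₀.sem m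
    have h1 : ((X.enD hq).gen ≫ (X.enD hq).act m) ≫ (X.enD hq).act A₀.e =
        (X.enD hq).gen ≫ (X.enD hq).act (A₀.e * m) := by rw [Category.assoc, EnD.act_mul]
    refine ⟨(X.enD hq).act (A₀.e * m), A₀.pr r', h1, fun h x => ?_⟩
    refine ((X.cd hq 0 h).eqv x _).trans ((hr _).trans ?_)
    rw [h1]
    exact congrArg (fun r => KK.prj (p + 1) (S.op r _ + _))
      (TrD.epsR_gen (D := X.enD hq) A₀.trD (A₀.e * m)).symm
  J := X.J
  pJ := X.pJ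
  J_loc := X.J_loc
  J_acyc := X.J_acyc
  J_V := X.J_V
  πJ_van := X.πJ_van
  πJ_gen := X.πJ_gen

end ED

/-- Row TOPA. -/
theorem rowTA : RowTA T := fun p _ _ _ _ _ _ _ _ _ _ _ _ _ _ _ _ _ Al h5 X =>
  ⟨X.toTA (by omega) Al⟩

end Vale.Agent.P221X
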