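import Vale.Agent.P221X.TA.Lat
import Vale.Agent.P221X.TA.Not

/-!
# P221X, block TOP-C: `L_h b` is a retract of `E`, and the field `lat` of `ED`
-/

noncomputable section

open CategoryTheory MonoidalCategory Limits Pretriangulated MulOpposite

set_option linter.unusedSectionVars false

namespace Vale.Agent.P221X.TA

open Vale.Agent.P251 Vale.Agent.P251.T Vale.Agent.P251.S NM

section Alg

variable {X : Type*} [AddCommGroup X] {r : ℕ} (e : ℕ → Fin r → X)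

/-- the span of the generators of level `< N` -/
def Sp : ℕ → Submodule ℤ X
  | 0 => ⊥
  | N + 1 => Sp N ⊔ Submodule.span ℤ (Set.range (e N))

theorem Sp_mono : Monotone (Sp e) := monotone_nat_of_le_succ fun _ => le_sup_left

theorem mem_Sp {m N : ℕ} (h : m < N) (i : Fin r) : e m i ∈ Sp e N :=
  Sp_mono e h (Submodule.mem_sup_right (Submodule.subset_span ⟨i, rfl⟩))

theorem Sp_succ {N : ℕ} {x : X} (h : x ∈ Sp e (N + 1)) :
    ∃ x' ∈ Sp e N, ∃ n : Fin r → ℤ, x = x' + ∑ i, n i • e N i := by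
  obtain ⟨x', h', y, hy, rfl⟩ := Submodule.mem_sup.1 h
  obtain ⟨n, rfl⟩ := (Submodule.mem_span_range_iff_exists_fun ℤ).1 hy
  exact ⟨x', h', n, rfl⟩

theorem Sp_le {N : ℕ} {P : Submodule ℤ X} (h : ∀ m < N, ∀ i, e m i ∈ P) : Sp e N ≤ P := by
  induction N with
  | zero => exact bot_le
  | succ N ih =>
    refine sup_le (ih fun m hm => h m (by omega)) (Submodule.span_le.2 ?_)
    rintro _ ⟨i, rfl⟩
    exact h N (by omega) i

theorem Sp_finite {p : ℕ} (hp : 0 < p) (hX : ∀ x : X, (p : ℤ) • x = 0) (N : ℕ) :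
    (Sp e N : Set X).Finite := by
  induction N with
  | zero => exact Set.finite_singleton 0
  | succ N ih =>
    refine ((ih.prod (Set.finite_univ (α := Fin r → Fin p))).image
      fun x => x.1 + ∑ i, ((x.2 i : ℕ) : ℤ) • e N i).subset fun x hx => ?_
    obtain ⟨x', h', n, rfl⟩ := Sp_succ e hx
    have hp' : (0 : ℤ) < p := by exact_mod_cast hp
    refine ⟨(x', fun i => ⟨(n i % p).toNat, ?_⟩), ⟨h', trivial⟩, ?_⟩
    · have := Int.emod_lt_of_pos (n i) hp'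
      omega
    · refine congrArg (x' + ·) (Finset.sum_congr rfl fun i _ => ?_)
      rw [Int.toNat_of_nonneg (Int.emod_nonneg _ hp'.ne'), Int.emod_def, sub_smul, mul_smul, hX,
        sub_zero]

variable {F : Type} [Field F] {G : X →+ KK F} {p : ℕ} [Fact p.Prime] [Algebra (ZMod p) F]
  (c : Module.Basis (Fin r) (ZMod p) F) {lam : ℕ → F} (hl : ∀ m, lam m ≠ 0)
  (h1 : ∀ (m : ℕ) i, G (e m i) ∈ KK.ge (-m : ℤ))
  (h2 : ∀ (m : ℕ) i, KK.cf (-m : ℤ) (G (e m i)) = c i * lam m)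

include h1 in
theorem G_Sp {N : ℕ} {x : X} (h : x ∈ Sp e N) : G x ∈ KK.ge (1 - N : ℤ) :=
  Sp_le e (P := ((KK.ge (1 - N : ℤ)).toAddSubgroup.comap G).toIntSubmodule)
    (fun m hm i => KK.ge_mono (by omega) (h1 m i)) h

include h2 in
theorem cf_sum (N : ℕ) (n : Fin r → ℤ) :
    KK.cf (-N : ℤ) (G (∑ i, n i • e N i)) = (∑ i, (n i : ZMod p) • c i) * lam N := by
  simp only [map_sum, map_zsmul, h2, Finset.sum_mul, Int.cast_smul_eq_zsmul, smul_mul_assoc]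

include hl h1 h2 in
theorem alg_surj (f : KK F) : ∃ x, f - G x ∈ KK.ge 1 := by
  have key : ∀ (N : ℕ) (f : KK F), f ∈ KK.ge (1 - N : ℤ) → ∃ x, f - G x ∈ KK.ge 1 := fun N => by
    induction N with
    | zero => exact fun f hf => ⟨0, by simpa using hf⟩
    | succ N ih =>
      intro f hf
      choose n hn using fun i => ZMod.intCast_surjective (c.repr (KK.cf (-N : ℤ) f / lam N) i)
      obtain ⟨x, hx⟩ := ih (f - G (∑ i, n i • e N i)) fun m hm => by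
        rcases (show m < -N ∨ m = -N by omega) with h | rfl
        · rw [map_sub, hf m (by push_cast; omega), zero_sub, neg_eq_zero]
          simp only [map_sum, map_zsmul]
          exact Finset.sum_eq_zero fun i _ => by rw [h1 N i m h, smul_zero]
        · rw [map_sub, cf_sum e c h2]
          simp only [hn, c.sum_repr, div_mul_cancel₀ _ (hl N), sub_self]
      exact ⟨∑ i, n i • e N i + x, by rwa [map_add, ← sub_sub]⟩
  obtain ⟨n, hn⟩ := KK.exists_ge f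
  exact key (1 - n).toNat f (KK.ge_mono (by omega) hn)

include hl h1 h2 in
theorem alg_ker (hX : ∀ x : X, (p : ℤ) • x = 0) (a : ℤ) (N : ℕ) :
    ∀ x ∈ Sp e N, G x ∈ KK.ge (-a) → x ∈ Sp e (a + 1).toNat := by
  induction N with
  | zero => exact fun x hx _ => Sp_mono e (Nat.zero_le _) hx
  | succ N ih =>
    intro x hx hG
    by_cases h : (N : ℤ) ≤ a
    · exact Sp_mono e (by omega) hx
    obtain ⟨x', h', n, rfl⟩ := Sp_succ e hx
    have h3 := hG (-N) (by omega)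
    rw [map_add, map_add, G_Sp e h1 h' _ (by omega), zero_add, cf_sum e c h2,
      mul_eq_zero_iff_right (hl N)] at h3
    have h4 : ∑ i, n i • e N i = 0 := Finset.sum_eq_zero fun i _ => by
      obtain ⟨k, hk⟩ := (ZMod.intCast_zmod_eq_zero_iff_dvd _ _).1
        (Fintype.linearIndependent_iff.1 c.linearIndependent _ h3 i)
      rw [hk, mul_smul, hX]
    rw [h4, add_zero] at hG ⊢
    exact ih x' h' hG

end Alg

universe u

variable {T : Type u} [Category.{0} T] [Preadditive T] [HasZeroObject T] [HasShift T ℤ]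
  [∀ n : ℤ, (shiftFunctor T n).Additive] [Pretriangulated T] [IsTriangulated T]
  [MonoidalCategory T] [SymmetricCategory T] [TensorTriangulated T] [MonoidalClosed T]
  [HasCoproducts.{0} T] [HasProducts.{0} T] [StableCat T] {Kh Ke : T} {Lh : LocFunctor Kh}
  {Le : LocFunctor Ke}

theorem inj_succ {X Y : T} {f : X ⟶ Y} {n : ℤ} (h : ∀ x : Sph T n ⟶ X, x ≫ f = 0 → x = 0)
    (x : Sph T (n + 1) ⟶ X⟦(1 : ℤ)⟧) (hx : x ≫ f⟦(1 : ℤ)⟧' = 0) : x = 0 := by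
  obtain ⟨y, hy⟩ := (shiftFunctor T (1 : ℤ)).map_surjective ((shAdd _ n 1 _ rfl).hom ≫ x)
  have := h y ((shiftFunctor T (1 : ℤ)).map_injective (by
    rw [Functor.map_comp, hy, Category.assoc, hx, comp_zero, Functor.map_zero]))
  rw [← cancel_epi (shAdd _ n 1 _ rfl).hom, ← hy, this, Functor.map_zero, comp_zero]

theorem hz_cone {X Y Q : T} {f : X ⟶ Y} {k : Y ⟶ Q} {d : Q ⟶ X⟦(1 : ℤ)⟧}
    (h : Triangle.mk f k d ∈ distTriang T) {n : ℤ} (hi : ∀ x : Sph T n ⟶ X, x ≫ f = 0 → x = 0)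
    (hs : ∀ y : Sph T (n + 1) ⟶ Y, ∃ x, y = x ≫ f) : HZ (Sph T (n + 1)) Q := fun x => by
  have h0 : d ≫ f⟦(1 : ℤ)⟧' = 0 := comp_distTriang_mor_zero₃₁ _ h
  have h1 : f ≫ k = 0 := comp_distTriang_mor_zero₁₂ _ h
  obtain ⟨y, rfl⟩ : ∃ y : Sph T (n + 1) ⟶ Y, x = y ≫ k :=
    Triangle.coyoneda_exact₃ _ h x (inj_succ hi (x ≫ d) (by rw [Category.assoc, h0, comp_zero]))
  obtain ⟨z, rfl⟩ := hs y
  rw [Category.assoc, h1, comp_zero]

/-- A map whose fracture square is cartesian in high degrees is an equivalence. -/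
theorem keq_of_frac {Y E : T} (g : Y ⟶ E)
    (bdd : ∀ (W : T) (N : ℤ), (∀ n ≥ N, ∀ x : Sph T n ⟶ W, x = 0) → Acyclic Kh W)
    (aY : Acyclic Kh (Le.L.obj Y)) (aE : Acyclic Kh (Le.L.obj E))
    (iY : ∀ (n : ℤ) (x : Sph T n ⟶ Y), x ≫ Le.u Y = 0 → x = 0)
    (iE : ∀ (n : ℤ) (x : Sph T n ⟶ E), x ≫ Le.u E = 0 → x = 0)
    (hs : ∀ n ≥ 0, ∀ w : Sph T n ⟶ Le.L.obj E, ∃ (x : Sph T n ⟶ Le.L.obj Y) (e : Sph T n ⟶ E),
      w = x ≫ Le.L.map g + e ≫ Le.u E)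
    (hk : ∀ n ≥ 0, ∀ (x : Sph T n ⟶ Le.L.obj Y) (e : Sph T n ⟶ E),
      x ≫ Le.L.map g = e ≫ Le.u E → ∃ y, x = y ≫ Le.u Y) : KEq Kh g := by
  obtain ⟨Y', a, d, hY⟩ := distinguished_cocone_triangle (Le.u Y)
  obtain ⟨E', a', d', hE⟩ := distinguished_cocone_triangle (Le.u E)
  obtain ⟨φ, h1, h2⟩ : ∃ φ : Y' ⟶ E', a ≫ φ = Le.L.map g ≫ a' ∧ d ≫ g⟦(1 : ℤ)⟧' = φ ≫ d' :=
    complete_distinguished_triangle_morphism _ _ hY hE g (Le.L.map g) (Le.u_naturality g)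
  obtain ⟨Q, k, w, hQ⟩ := distinguished_cocone_triangle φ
  have sj : ∀ {Z Z' : T} {a : Le.L.obj Z ⟶ Z'} {d : Z' ⟶ Z⟦(1 : ℤ)⟧},
      (Triangle.mk (Le.u Z) a d ∈ distTriang T) →
      (∀ (n : ℤ) (x : Sph T n ⟶ Z), x ≫ Le.u Z = 0 → x = 0) →
      ∀ (n : ℤ) (x : Sph T n ⟶ Z'), ∃ y, x = y ≫ a := fun {Z Z' a d} h hi n x => by
    obtain ⟨n, rfl⟩ : ∃ m, n = m + 1 := ⟨n - 1, by ring⟩
    have h0 : d ≫ (Le.u Z)⟦(1 : ℤ)⟧' = 0 := comp_distTriang_mor_zero₃₁ _ h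
    exact Triangle.coyoneda_exact₃ _ h x
      (inj_succ (hi n) (x ≫ d) (by rw [Category.assoc, h0, comp_zero]))
  have z1 : Le.u Y ≫ a = 0 := comp_distTriang_mor_zero₁₂ _ hY
  have z2 : Le.u E ≫ a' = 0 := comp_distTriang_mor_zero₁₂ _ hE
  have hφ : KEq Kh φ := (keq_iff_acyclic hQ).2 (bdd Q 1 fun n hn => by
    obtain ⟨n, rfl⟩ : ∃ m, n = m + 1 := ⟨n - 1, by ring⟩
    refine hz_cone hQ (fun x hx => ?_) fun y => ?_
    · obtain ⟨x, rfl⟩ := sj hY iY n x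
      obtain ⟨e, he⟩ : ∃ e : Sph T n ⟶ E, x ≫ Le.L.map g = e ≫ Le.u E :=
        Triangle.coyoneda_exact₂ _ hE _ (by
          change (x ≫ Le.L.map g) ≫ a' = 0
          rw [Category.assoc, ← h1, ← Category.assoc, hx])
      obtain ⟨y, rfl⟩ := hk n (by omega) x e he
      rw [Category.assoc, z1, comp_zero]
    · obtain ⟨w, rfl⟩ := sj hE iE _ y
      obtain ⟨x, e, rfl⟩ := hs (n + 1) (by omega) w
      exact ⟨x ≫ a, by simp [h1, z2]⟩)
  have hd : KEq Kh d := (acyclic_iff_isIso (rot_of_distTriang _ hY)).1 aY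
  have hd' : KEq Kh d' := (acyclic_iff_isIso (rot_of_distTriang _ hE)).1 aE
  have hg : KEq Kh (g⟦(1 : ℤ)⟧') := hd.of_comp_left (h2 ▸ hφ.comp hd')
  have h3 := (upDn (C := T)).hom.naturality g
  exact KEq.of_comp_left (f := upDn.hom.app Y) (KEq.of_isIso _)
    (h3 ▸ (hg.shift (-1)).comp (KEq.of_isIso (upDn.hom.app E)))

theorem Lat.retract {N Z Z' : T} (h : Lat Lh Le N Z') (i : Z ⟶ Z') (r : Z' ⟶ Z)
    (hir : i ≫ r = 𝟙 Z) : Lat Lh Le N Z := by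
  have h1 : ∀ x, fracSrc Lh.L Le.L N r (fracSrc Lh.L Le.L N i x) = x := fun x => by
    simp only [fracSrc_apply, Category.assoc, ← Functor.map_comp, hir,
      CategoryTheory.Functor.map_id, Category.comp_id]
  refine ⟨(h.1.image (fracSrc Lh.L Le.L N r)).subset fun x hx => ⟨_, ?_, h1 x⟩, ?_⟩
  · change frac Lh.unit Le.unit N Z' _ = 0
    rw [frac_nat, show frac Lh.unit Le.unit N Z x = 0 from hx, map_zero]
  · obtain ⟨s, hs, h2⟩ := h.2
    refine ⟨post N (Le.L.map (Lh.L.map r)) '' s, hs.image _, fun y => ?_⟩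
    obtain ⟨x, f, hf, h3⟩ := h2 (y ≫ Le.L.map (Lh.L.map i))
    refine ⟨fracSrc Lh.L Le.L N r x, _, ⟨f, hf, rfl⟩, ?_⟩
    rw [frac_nat, ← map_add, ← h3, post_apply, Category.assoc, ← Functor.map_comp,
      ← Functor.map_comp, hir, CategoryTheory.Functor.map_id, CategoryTheory.Functor.map_id,
      Category.comp_id]

/-- The coordinates on the homotopy groups of `E` and `L_e E`. -/
structure EC (F : Type) [Field F] (Le : LocFunctor Ke) (q : ℤ) (E : T) where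
  kV : ∀ a : ℤ, (Sph T (q * a) ⟶ Le.L.obj E) ≃+ KK F
  πE_van : ∀ n : ℤ, ¬ q ∣ n → ∀ x : Sph T n ⟶ E, x = 0
  πV_van : ∀ n : ℤ, ¬ q ∣ n → ∀ x : Sph T n ⟶ Le.L.obj E, x = 0
  πE_inj : ∀ (a : ℤ) (x : Sph T (q * a) ⟶ E), x ≫ Le.unit.app E = 0 → x = 0
  πE_range : ∀ (a : ℤ) (z : KK F), z ∈ KK.ge (-a) ↔
    ∃ x : Sph T (q * a) ⟶ E, kV a (x ≫ Le.unit.app E) = z
  sc : F → (E ⟶ E)
  kV_sc : ∀ a c x, kV a (x ≫ Le.L.map (sc c)) = c • kV a x

variable {F : Type} [Field F] {q : ℤ} {E : T}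

/-- `π_* L_e Y` is spanned by classes whose images have the valuations `-(l + (p + 1) j)`. -/
structure Blk (p : ℕ) (Kh : T) (𝓔 : EC F Le q E) {Y : T} (g : Y ⟶ E) (l : ℕ) : Prop where
  van : ∀ n, ¬ q ∣ n → HZ (Sph T n) (Le.L.obj Y)
  inj : ∀ (n : ℤ) (y : Sph T n ⟶ Y), y ≫ Le.u Y = 0 → y = 0
  acyc : Acyclic Kh (Le.L.obj Y)
  pz : ∀ (n : ℤ) (x : Sph T n ⟶ Le.L.obj Y), (p : ℤ) • x = 0
  gen : ∀ a : ℤ, ∃ m : ℕ → (Sph T (q * a) ⟶ Le.L.obj Y),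
    (∀ x, x ∈ Submodule.span ℤ (Set.range m)) ∧ ∀ j : ℕ,
      𝓔.kV a (m j ≫ Le.L.map g) ∈ KK.ge (-(l + (p + 1) * j : ℕ) : ℤ) ∧
      𝓔.kV a (m j ≫ Le.L.map g) ∉ KK.ge (-(l + (p + 1) * j : ℕ) + 1 : ℤ) ∧
      (((l + (p + 1) * j : ℕ) : ℤ) ≤ a → ∃ y, m j = y ≫ Le.u Y)

theorem map_total (G : T ⥤ T) [G.Additive] {I : Type} [Fintype I] {Y : I → T} {N : T}
    (x : N ⟶ G.obj (⨁ Y)) :
    x = ∑ t, (x ≫ G.map (biproduct.π Y t)) ≫ G.map (biproduct.ι Y t) := by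
  simp only [Category.assoc, ← Functor.map_comp, ← Preadditive.comp_sum, ← Functor.map_sum,
    biproduct.total, CategoryTheory.Functor.map_id, Category.comp_id]

/-- The fields `iE`, `rE`, `iE_rE`, `lat` of `ED`. -/
theorem exists_retract {p : ℕ} [Fact p.Prime] [CharP F p] [Finite F] (Lh : LocFunctor Kh)
    (𝓔 : EC F Le q E) (hq : 0 < q)
    (bdd : ∀ (W : T) (N : ℤ), (∀ n ≥ N, ∀ x : Sph T n ⟶ W, x = 0) → Acyclic Kh W)
    (hE : IsLocal Kh E) (aE : Acyclic Kh (Le.L.obj E)) {Yb : ℕ → T} {gb : ∀ l, Yb l ⟶ E}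
    (hb : ∀ l, Blk p Kh 𝓔 (gb l) l) {b : T} (eb : b ≅ Yb 0)
    {M : T} {f : 𝟙_ T ⟶ 𝟙_ T} {i : 𝟙_ T ⟶ M} {δ : M ⟶ (𝟙_ T)⟦(1 : ℤ)⟧}
    (hM : Triangle.mk f i δ ∈ distTriang T) :
    ∃ (iE : Lh.L.obj b ⟶ E) (rE : E ⟶ Lh.L.obj b), iE ≫ rE = 𝟙 _ ∧ ∀ n k : ℤ,
      FinKer (frac Lh.unit Le.unit (M⟦n⟧) (b⟦k⟧)) ∧
        FinCoker (frac Lh.unit Le.unit (M⟦n⟧) (b⟦k⟧)) := by
  let _ : Algebra (ZMod p) F := ZMod.algebra F p
  have : Module.Finite (ZMod p) F := Module.Finite.of_finite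
  let c := Module.finBasis (ZMod p) F
  set r := Module.finrank (ZMod p) F
  let Y : Fin (p + 1) × Fin r → T := fun t => Yb t.1
  let g : ⨁ Y ⟶ E := biproduct.desc fun t => gb t.1 ≫ 𝓔.sc (c t.2)
  have hY : ∀ t : Fin (p + 1) × Fin r, Blk p Kh 𝓔 (gb t.1) t.1 := fun t => hb _
  have pz : ∀ (n : ℤ) (x : Sph T n ⟶ Le.L.obj (⨁ Y)), (p : ℤ) • x = 0 := fun n x => by
    rw [map_total Le.L x, Finset.smul_sum]
    exact Finset.sum_eq_zero fun t _ => by rw [← Preadditive.zsmul_comp, (hY t).pz, zero_comp]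
  have van : ∀ n, ¬ q ∣ n → HZ (Sph T n) (Le.L.obj (⨁ Y)) := fun n hn x => by
    rw [map_total Le.L x]
    exact Finset.sum_eq_zero fun t _ => by rw [(hY t).van n hn (x ≫ _), zero_comp]
  have key : ∀ a : ℤ, (∀ f : KK F, ∃ x : Sph T (q * a) ⟶ Le.L.obj (⨁ Y),
      f - 𝓔.kV a (x ≫ Le.L.map g) ∈ KK.ge 1) ∧
      {x : Sph T (q * a) ⟶ Le.L.obj (⨁ Y) | 𝓔.kV a (x ≫ Le.L.map g) ∈ KK.ge (-a)}.Finite ∧
      ∀ x : Sph T (q * a) ⟶ Le.L.obj (⨁ Y), 𝓔.kV a (x ≫ Le.L.map g) ∈ KK.ge (-a) →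
        ∃ y, x = y ≫ Le.u _ := fun a => by
    choose m hm1 hm2 using fun l : Fin (p + 1) => (hb l).gen a
    let e' : Fin (p + 1) → ℕ → Fin r → (Sph T (q * a) ⟶ Le.L.obj (⨁ Y)) :=
      fun l j i => m l j ≫ Le.L.map (biproduct.ι Y (l, i))
    let md : ℕ → Fin (p + 1) := fun n => ⟨n % (p + 1), Nat.mod_lt _ p.succ_pos⟩
    let e : ℕ → Fin r → (Sph T (q * a) ⟶ Le.L.obj (⨁ Y)) := fun n => e' (md n) (n / (p + 1))
    let G : (Sph T (q * a) ⟶ Le.L.obj (⨁ Y)) →+ KK F :=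
      (𝓔.kV a).toAddMonoidHom.comp (post _ (Le.L.map g))
    have hG : ∀ l j i, G (e' l j i) = c i • 𝓔.kV a (m l j ≫ Le.L.map (gb l)) :=
      fun l j i => by
        rw [← 𝓔.kV_sc]
        exact congrArg (𝓔.kV a) (by simp [e', g, ← Functor.map_comp])
    have hn : ∀ n, ((md n : ℕ) + (p + 1) * (n / (p + 1)) : ℕ) = n := fun n => Nat.mod_add_div _ _
    have h0 := fun n => hm2 (md n) (n / (p + 1))
    simp only [hn] at h0
    let lam : ℕ → F := fun n =>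
      KK.cf (-n : ℤ) (𝓔.kV a (m (md n) (n / (p + 1)) ≫ Le.L.map (gb (md n))))
    have hl : ∀ n, lam n ≠ 0 := fun n h => (h0 n).2.1 fun k hk => by
      rcases (show k < -n ∨ k = -n by omega) with h' | rfl
      exacts [(h0 n).1 k h', h]
    have h1 : ∀ (n : ℕ) i, G (e n i) ∈ KK.ge (-n : ℤ) := fun n i => by
      rw [hG]; exact Submodule.smul_mem _ _ (h0 n).1
    have h2 : ∀ (n : ℕ) i, KK.cf (-n : ℤ) (G (e n i)) = c i * lam n := fun n i => by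
      rw [hG, map_smul]; rfl
    have sp : ∀ x, ∃ N, x ∈ Sp e N := fun x => by
      refine (Submodule.mem_iSup_of_directed _ (Sp_mono e).directed_le).1 ?_
      rw [map_total Le.L x]
      refine Submodule.sum_mem _ fun t _ => ?_
      have := Submodule.mem_map_of_mem
        (f := (post _ (Le.L.map (biproduct.ι Y t))).toIntLinearMap)
        (hm1 t.1 (x ≫ Le.L.map (biproduct.π Y t)))
      rw [Submodule.map_span] at this
      refine Submodule.span_le.2 ?_ this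
      rintro _ ⟨_, ⟨j, rfl⟩, rfl⟩
      have h3 : e (t.1 + (p + 1) * j) t.2 = e' t.1 j t.2 := by
        have h4 : md (t.1 + (p + 1) * j) = t.1 :=
          Fin.ext (by simp [md, Nat.mod_eq_of_lt t.1.2])
        have h5 : (t.1 + (p + 1) * j) / (p + 1) = j := by
          rw [Nat.add_mul_div_left _ _ p.succ_pos, Nat.div_eq_of_lt t.1.2, zero_add]
        simp only [e, h4, h5]
      exact Submodule.mem_iSup_of_mem _ (h3 ▸ mem_Sp e (Nat.lt_succ_self _) t.2)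
    have hk : ∀ x, G x ∈ KK.ge (-a) → x ∈ Sp e (a + 1).toNat := fun x hx =>
      (sp x).elim fun N hN => alg_ker e c hl h1 h2 (pz _) a N x hN hx
    refine ⟨alg_surj e c hl h1 h2,
      (Sp_finite e (Fact.out : p.Prime).pos (pz _) _).subset fun x hx => hk x hx, fun x hx => ?_⟩
    obtain ⟨y, hy⟩ := Sp_le e (P := LinearMap.range (post _ (Le.u (⨁ Y))).toIntLinearMap)
      (fun n hn i => by
        obtain ⟨y, hy⟩ := (h0 n).2.2 (by omega)
        refine ⟨y ≫ biproduct.ι Y (md n, i), ?_⟩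
        change (y ≫ _) ≫ _ = m _ _ ≫ _
        rw [hy, Category.assoc, Category.assoc, Le.u_naturality]) (hk x hx)
    exact ⟨y, hy.symm⟩
  have hg : KEq Kh g := keq_of_frac g bdd
    ((acyclic_biproduct fun t => (hY t).acyc).of_iso (Le.L.mapBiproduct Y).symm) aE
    (fun n x hx => biproduct.hom_ext _ _ fun t => by
      rw [zero_comp]
      exact (hY t).inj n _ (by rw [Category.assoc, ← Le.u_naturality, reassoc_of% hx, zero_comp]))
    (fun n x hx => by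
      by_cases h : q ∣ n
      · obtain ⟨a, rfl⟩ := h
        exact 𝓔.πE_inj a x hx
      · exact 𝓔.πE_van n h x)
    (fun n hn w => by
      by_cases h : q ∣ n
      · obtain ⟨a, rfl⟩ := h
        obtain ⟨x, hx⟩ := (key a).1 (𝓔.kV a w)
        obtain ⟨e, he⟩ := (𝓔.πE_range a _).1
          (KK.ge_mono (by have := nonneg_of_mul_nonneg_right hn hq; omega) hx)
        exact ⟨x, e, (𝓔.kV a).injective (by rw [map_add, ← Le.unit_app, he, add_sub_cancel])⟩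
      · exact ⟨0, 0, by rw [𝓔.πV_van n h w, zero_comp, zero_comp, add_zero]⟩)
    (fun n _ x e hx => by
      by_cases h : q ∣ n
      · obtain ⟨a, rfl⟩ := h
        exact (key a).2.2 x ((𝓔.πE_range a _).2 ⟨e, congrArg _ hx.symm⟩)
      · exact ⟨0, by rw [van n h x, zero_comp]⟩)
  have := Lh.keq_desc hE hg
  have hu := Lh.u_desc hE g
  have hr : 0 < r := Module.finrank_pos
  let t₀ : Fin (p + 1) × Fin r := (0, ⟨0, hr⟩)
  obtain ⟨ι₁, π₁, hπ₁⟩ : ∃ (ι₀ : Yb 0 ⟶ ⨁ Y) (π₀ : ⨁ Y ⟶ Yb 0), ι₀ ≫ π₀ = 𝟙 _ :=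
    ⟨biproduct.ι Y t₀, biproduct.π Y t₀, biproduct.ι_π_self _ _⟩
  obtain ⟨ι₀, π₀, hπ⟩ : ∃ (ι₀ : b ⟶ ⨁ Y) (π₀ : ⨁ Y ⟶ b), ι₀ ≫ π₀ = 𝟙 b :=
    ⟨eb.hom ≫ ι₁, π₁ ≫ eb.inv, by rw [Category.assoc, reassoc_of% hπ₁, eb.hom_inv_id]⟩
  refine ⟨Lh.L.map ι₀ ≫ Lh.desc hE g, inv (Lh.desc hE g) ≫ Lh.L.map π₀, ?_,
    lat_of_sph hM fun n => Lat.retract ?_ _ _ hπ⟩
  · rw [Category.assoc, IsIso.hom_inv_id_assoc, ← Functor.map_comp, hπ]
    exact CategoryTheory.Functor.map_id _ _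
  · by_cases h : q ∣ n
    · obtain ⟨a, rfl⟩ := h
      exact lat_of_coord _ _ (IsIso.hom_inv_id (Lh.desc hE g)) (𝓔.kV a) a (𝓔.πE_inj a)
        (𝓔.πE_range a) (hu.symm ▸ (key a).2.1) fun w => by
          obtain ⟨x, hx⟩ := (key a).1 (𝓔.kV a (w ≫ Le.L.map (Lh.desc hE g)))
          exact ⟨x, hu.symm ▸ KK.ge_mono zero_le_one hx⟩
    · exact lat_of_zero _ _ (IsIso.hom_inv_id (Lh.desc hE g)) (van n h) (𝓔.πE_van n h)
        (𝓔.πV_van n h)

end Vale.Agent.P221X.TA
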