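import Vale.Agent.P221X.TA.OfED
import Vale.Agent.P221X.TA.Not
import Vale.Agent.P221X.TA.FT
import Vale.Agent.P221X.TA.Idx
import Vale.Agent.P221X.TA.Out

/-!
# P221X: assembly of the rows TOP-A and TOP-B
-/

noncomputable section

open CategoryTheory MonoidalCategory Limits Pretriangulated

namespace Vale.Agent.P221X

open Vale.Agent.P251 Vale.Agent.P251.T Vale.Agent.P251.S

variable {p : ℕ} {F : Type} [Field F] {D : GD p F} {R : Type} [Ring R] [Algebra F R]

universe u

variable {T : Type u} [Category.{0} T] [Preadditive T] [HasZeroObject T] [HasShift T ℤ]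
  [∀ n : ℤ, (shiftFunctor T n).Additive] [Pretriangulated T] [IsTriangulated T]
  [MonoidalCategory T] [SymmetricCategory T] [TensorTriangulated T] [MonoidalClosed T]
  [HasCoproducts.{0} T] [HasProducts.{0} T] [StableCat T]

/-- The abstract theorem from the middle data. -/
theorem TA.MD.exists_out [Fact p.Prime] [CharP F p] [Finite F] {S : RD D R} {Al : AlgA S}
    {b V : T} (M : TA.MD Al b V) (hc : HasCov T) (hV : IsFin V) : ∃ X : T, Out p b V X := by
  obtain ⟨I⟩ := TA.exists_idx Al
  obtain ⟨X, ⟨C⟩⟩ := TA.exists_cov hc (M.Yf I)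
  exact ⟨X, M.out_of I C hV (M.finite_pi I) (M.not_thick I C)⟩

end Vale.Agent.P221X
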